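import Vale.Agent.P195.MathlibUsed
import Vale.Agent.P195.H231.Q.Defs

set_option linter.all false

/-!
# P195 (quantum version): `q`-derivatives of polynomials
-/

namespace Vale.Agent.P195Q.Weyl

open MvPolynomial

universe u

variable {K : Type u} [Field K] [QPar K]

/-- the `q`-number `1 + q + ⋯ + q ^ (n - 1)` -/
noncomputable def qn (n : ℕ) : K := ∑ i ∈ Finset.range n, QPar.q ^ i

theorem qn_zero : (qn 0 : K) = 0 := by simp [qn]

theorem qn_one : (qn 1 : K) = 1 := by simp [qn]

theorem qn_succ (n : ℕ) : (qn (n + 1) : K) = 1 + QPar.q * qn n := by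
  rw [qn, Finset.sum_range_succ', qn, Finset.mul_sum, pow_zero, add_comm]
  congr 1
  exact Finset.sum_congr rfl fun i _ => pow_succ' _ _

theorem qn_ne (n : ℕ) : (qn (n + 1) : K) ≠ 0 := QPar.br n

theorem qn_ne' {n : ℕ} (h : n ≠ 0) : (qn n : K) ≠ 0 := by
  obtain ⟨m, rfl⟩ := Nat.exists_eq_succ_of_ne_zero h
  exact qn_ne m

section

variable {σ : Type}

/-- the `q`-derivative with respect to the variable `a` -/
noncomputable def qd (a : σ) : MvPolynomial σ K →ₗ[K] MvPolynomial σ K :=
  (basisMonomials σ K).constr K fun m => monomial (m - Finsupp.single a 1) (qn (m a))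

theorem qd_mon (a : σ) (m : σ →₀ ℕ) :
    qd a (monomial m (1 : K)) = monomial (m - Finsupp.single a 1) (qn (m a)) := by
  have := (basisMonomials σ K).constr_basis K
    (fun m => (monomial (m - Finsupp.single a 1) (qn (m a)) : MvPolynomial σ K)) m
  rw [coe_basisMonomials] at this
  exact this

theorem qd_monomial (a : σ) (m : σ →₀ ℕ) (c : K) :
    qd a (monomial m c) = monomial (m - Finsupp.single a 1) (c * qn (m a)) := by
  have : (monomial m c : MvPolynomial σ K) = c • monomial m 1 := by
    rw [smul_monomial, smul_eq_mul, mul_one]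
  rw [this, map_smul, qd_mon, smul_monomial, smul_eq_mul]

theorem ext_mon' {E : Type*} [AddCommGroup E] [Module K E] {T T' : MvPolynomial σ K →ₗ[K] E}
    (h : ∀ m, T (monomial m 1) = T' (monomial m 1)) : T = T' := by
  apply (basisMonomials σ K).ext
  intro m
  rw [coe_basisMonomials]
  exact h m

theorem qd_C_mul (a : σ) (c : K) (f : MvPolynomial σ K) : qd a (C c * f) = C c * qd a f := by
  rw [← smul_eq_C_mul, ← smul_eq_C_mul, map_smul]

theorem qd_one (a : σ) : qd a (1 : MvPolynomial σ K) = 0 := by
  have : (1 : MvPolynomial σ K) = monomial 0 1 := rfl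
  rw [this, qd_mon]
  simp [qn_zero]

theorem qd_self (a : σ) (f : MvPolynomial σ K) :
    qd a (X a * f) = f + C QPar.q * X a * qd a f := by
  classical
  have : (qd a) ∘ₗ (LinearMap.mulLeft K (X a)) = LinearMap.id +
      (LinearMap.mulLeft K (C (QPar.q : K) * X a)) ∘ₗ (qd a) := by
    apply ext_mon'
    intro m
    simp only [LinearMap.comp_apply, LinearMap.mulLeft_apply, LinearMap.add_apply,
      LinearMap.id_apply]
    have e1 : (X a * monomial m 1 : MvPolynomial σ K) = monomial (Finsupp.single a 1 + m) 1 := by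
      rw [X, monomial_mul, one_mul]
    rw [e1, qd_mon, qd_mon]
    have e2 : Finsupp.single a 1 + m - Finsupp.single a 1 = m := add_tsub_cancel_left _ _
    have e3 : (Finsupp.single a 1 + m : σ →₀ ℕ) a = m a + 1 := by
      simp [add_comm]
    rw [e2, e3, qn_succ, map_add]
    congr 1
    by_cases h : m a = 0
    · rw [h, qn_zero, mul_zero, map_zero, map_zero, mul_zero]
    · have e4 : Finsupp.single a 1 + (m - Finsupp.single a 1) = m := by
        rw [add_tsub_cancel_of_le]
        rw [Finsupp.single_le_iff]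
        omega
      rw [X, mul_assoc, monomial_mul, e4, one_mul, C_mul_monomial]
  exact LinearMap.congr_fun this f

theorem qd_ne {a b : σ} (hab : a ≠ b) (f : MvPolynomial σ K) :
    qd a (X b * f) = X b * qd a f := by
  classical
  have : (qd a) ∘ₗ (LinearMap.mulLeft K (X b)) = (LinearMap.mulLeft K (X b)) ∘ₗ (qd a) := by
    apply ext_mon'
    intro m
    simp only [LinearMap.comp_apply, LinearMap.mulLeft_apply]
    have e1 : (X b * monomial m 1 : MvPolynomial σ K) = monomial (Finsupp.single b 1 + m) 1 := by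
      rw [X, monomial_mul, one_mul]
    rw [e1, qd_mon, qd_mon]
    have e3 : (Finsupp.single b 1 + m : σ →₀ ℕ) a = m a := by
      rw [Finsupp.add_apply, Finsupp.single_apply, if_neg (Ne.symm hab), zero_add]
    rw [e3]
    by_cases h : m a = 0
    · rw [h, qn_zero, map_zero, map_zero, mul_zero]
    · rw [X, monomial_mul, one_mul]
      congr 1
      rw [← add_tsub_assoc_of_le]
      rw [Finsupp.single_le_iff]
      omega
  exact LinearMap.congr_fun this f

theorem qd_comm (a b : σ) (f : MvPolynomial σ K) : qd a (qd b f) = qd b (qd a f) := by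
  classical
  by_cases hab : a = b
  · rw [hab]
  have : (qd a) ∘ₗ (qd b) = (qd b : MvPolynomial σ K →ₗ[K] _) ∘ₗ (qd a) := by
    apply ext_mon'
    intro m
    simp only [LinearMap.comp_apply, qd_mon, qd_monomial]
    have e1 : (m - Finsupp.single b 1 : σ →₀ ℕ) a = m a := by
      rw [Finsupp.tsub_apply, Finsupp.single_apply, if_neg (Ne.symm hab), tsub_zero]
    have e2 : (m - Finsupp.single a 1 : σ →₀ ℕ) b = m b := by
      rw [Finsupp.tsub_apply, Finsupp.single_apply, if_neg hab, tsub_zero]
    rw [e1, e2, tsub_right_comm, one_mul, one_mul, mul_comm]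
  exact LinearMap.congr_fun this f

/-- the operator with `qd a (qI a f) = f` -/
noncomputable def qI (a : σ) : MvPolynomial σ K →ₗ[K] MvPolynomial σ K :=
  (basisMonomials σ K).constr K fun m => monomial (Finsupp.single a 1 + m) (qn (m a + 1))⁻¹

theorem qI_mon (a : σ) (m : σ →₀ ℕ) :
    qI a (monomial m (1 : K)) = monomial (Finsupp.single a 1 + m) (qn (m a + 1))⁻¹ := by
  have := (basisMonomials σ K).constr_basis K
    (fun m => (monomial (Finsupp.single a 1 + m) (qn (m a + 1))⁻¹ : MvPolynomial σ K)) m
  rw [coe_basisMonomials] at this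
  exact this

theorem qI_monomial (a : σ) (m : σ →₀ ℕ) (c : K) :
    qI a (monomial m c) = monomial (Finsupp.single a 1 + m) (c * (qn (m a + 1))⁻¹) := by
  have : (monomial m c : MvPolynomial σ K) = c • monomial m 1 := by
    rw [smul_monomial, smul_eq_mul, mul_one]
  rw [this, map_smul, qI_mon, smul_monomial, smul_eq_mul]

theorem qd_qI (a : σ) (f : MvPolynomial σ K) : qd a (qI a f) = f := by
  classical
  have : (qd a) ∘ₗ (qI a) = (LinearMap.id : MvPolynomial σ K →ₗ[K] _) := by
    apply ext_mon'
    intro m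
    simp only [LinearMap.comp_apply, qI_mon, qd_monomial, LinearMap.id_apply]
    have e2 : Finsupp.single a 1 + m - Finsupp.single a 1 = m := add_tsub_cancel_left _ _
    have e3 : (Finsupp.single a 1 + m : σ →₀ ℕ) a = m a + 1 := by
      simp [add_comm]
    rw [e2, e3, inv_mul_cancel₀ (qn_ne _)]
  exact LinearMap.congr_fun this f

theorem qd_qI_ne {a b : σ} (hab : a ≠ b) (f : MvPolynomial σ K) :
    qd a (qI b f) = qI b (qd a f) := by
  classical
  have : (qd a) ∘ₗ (qI b) = (qI b : MvPolynomial σ K →ₗ[K] _) ∘ₗ (qd a) := by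
    apply ext_mon'
    intro m
    simp only [LinearMap.comp_apply, qI_mon, qd_monomial, qd_mon, qI_monomial]
    have e3 : (Finsupp.single b 1 + m : σ →₀ ℕ) a = m a := by
      rw [Finsupp.add_apply, Finsupp.single_apply, if_neg (Ne.symm hab), zero_add]
    have e4 : (m - Finsupp.single a 1 : σ →₀ ℕ) b = m b := by
      rw [Finsupp.tsub_apply, Finsupp.single_apply, if_neg hab, tsub_zero]
    rw [e3, e4, one_mul, one_mul, mul_comm]
    by_cases h : m a = 0
    · rw [h, qn_zero, zero_mul, map_zero, map_zero]
    · congr 1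
      rw [← add_tsub_assoc_of_le]
      rw [Finsupp.single_le_iff]
      omega
  exact LinearMap.congr_fun this f

end

end Vale.Agent.P195Q.Weyl
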