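import Vale.Agent.P195.MathlibUsed
import Vale.Agent.P195.H231.Q.B1
import Vale.Agent.P195.H231.Q.QD

set_option linter.all false

section

section

/-!
# P195: the Weyl algebra `A_2` as a space of symbols with commuting left and right actions

`D K = K[x₀,x₁,ξ₀,ξ₁]` (symbol of `∑ c x^a ∂^b`).  Operators: left multiplication `Lx i`, `Ld i`
by `x_i`, `∂_i`, right multiplication `Rx i`, `Rd i` by `x_i`, `∂_i`:
`Lx = x`, `Rd = ξ`, `Ld = ξ + ∂/∂x`, `Rx = x + ∂/∂ξ`.
`V w d` = span of the monomials `x^a ξ^b`, `|a| = w + |b|`, `|b| ≤ d` (weight `w`, order `≤ d`).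
-/

namespace Vale.Agent.P195Q.Weyl

open MvPolynomial

universe u

variable (K : Type u) [Field K] [QPar K]

/-- The space of symbols; `inl i` is `x_i`, `inr i` is `ξ_i`. -/
abbrev D := MvPolynomial (Fin 2 ⊕ Fin 2) K

variable {K}

/-- multiplication by a variable -/
noncomputable def mulX (a : Fin 2 ⊕ Fin 2) : Module.End K (D K) := LinearMap.mulLeft K (X a)

@[simp] theorem mulX_apply (a : Fin 2 ⊕ Fin 2) (f : D K) : mulX a f = X a * f := rfl

/-- the factor `1 + (q - 1) x_i ξ_i` -/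
noncomputable def uu (i : Fin 2) : D K :=
  1 + (C QPar.q - 1) * (X (Sum.inl i) * X (Sum.inr i))

/-- left multiplication by `x_i` -/
noncomputable def Lx (i : Fin 2) : Module.End K (D K) := mulX (Sum.inl i)
/-- right multiplication by `∂_i` -/
noncomputable def Rd (i : Fin 2) : Module.End K (D K) := mulX (Sum.inr i)
/-- left multiplication by `∂_i` -/
noncomputable def Ld (i : Fin 2) : Module.End K (D K) :=
  mulX (Sum.inr i) + (LinearMap.mulLeft K (uu i)) ∘ₗ qd (Sum.inl i)
/-- right multiplication by `x_i` -/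
noncomputable def Rx (i : Fin 2) : Module.End K (D K) :=
  mulX (Sum.inl i) + (LinearMap.mulLeft K (uu i)) ∘ₗ qd (Sum.inr i)

theorem Lx_apply (i : Fin 2) (f : D K) : Lx i f = X (Sum.inl i) * f := rfl
theorem Rd_apply (i : Fin 2) (f : D K) : Rd i f = X (Sum.inr i) * f := rfl
theorem Ld_apply (i : Fin 2) (f : D K) :
    Ld i f = X (Sum.inr i) * f + uu i * qd (Sum.inl i) f := rfl
theorem Rx_apply (i : Fin 2) (f : D K) :
    Rx i f = X (Sum.inl i) * f + uu i * qd (Sum.inr i) f := rfl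

theorem qd_uu_ne {a : Fin 2 ⊕ Fin 2} {i : Fin 2} (h1 : a ≠ Sum.inl i) (h2 : a ≠ Sum.inr i)
    (f : D K) : qd a (uu i * f) = uu i * qd a f := by
  have e : uu i * f = f + C QPar.q * (X (Sum.inl i) * (X (Sum.inr i) * f)) -
      X (Sum.inl i) * (X (Sum.inr i) * f) := by
    rw [uu]; ring
  rw [e, map_sub, map_add, qd_C_mul, qd_ne h1, qd_ne h2, uu]
  ring

theorem qd_uu_inl (i : Fin 2) (f : D K) : qd (Sum.inl i) (uu i * f) =
    qd (Sum.inl i) f + (C QPar.q - 1) * X (Sum.inr i) * (f + C QPar.q * X (Sum.inl i) *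
      qd (Sum.inl i) f) := by
  have e : uu i * f = f + C QPar.q * (X (Sum.inr i) * (X (Sum.inl i) * f)) -
      X (Sum.inr i) * (X (Sum.inl i) * f) := by
    rw [uu]; ring
  rw [e, map_sub, map_add, qd_C_mul, qd_ne (by simp), qd_self]
  ring

theorem qd_uu_inr (i : Fin 2) (f : D K) : qd (Sum.inr i) (uu i * f) =
    qd (Sum.inr i) f + (C QPar.q - 1) * X (Sum.inl i) * (f + C QPar.q * X (Sum.inr i) *
      qd (Sum.inr i) f) := by
  have e : uu i * f = f + C QPar.q * (X (Sum.inl i) * (X (Sum.inr i) * f)) -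
      X (Sum.inl i) * (X (Sum.inr i) * f) := by
    rw [uu]; ring
  rw [e, map_sub, map_add, qd_C_mul, qd_ne (by simp), qd_self]
  ring

theorem Lx_comm (i j : Fin 2) (f : D K) : Lx i (Lx j f) = Lx j (Lx i f) := by
  simp only [Lx_apply]; ring

theorem Rd_comm (i j : Fin 2) (f : D K) : Rd i (Rd j f) = Rd j (Rd i f) := by
  simp only [Rd_apply]; ring

theorem Ld_comm (i j : Fin 2) (f : D K) : Ld i (Ld j f) = Ld j (Ld i f) := by
  by_cases h : i = j
  · rw [h]
  · have h' : j ≠ i := Ne.symm h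
    simp only [Ld_apply, map_add]
    rw [qd_ne (by simp), qd_ne (by simp), qd_uu_ne (by simpa using h) (by simp),
      qd_uu_ne (by simpa using h') (by simp), qd_comm (Sum.inl i) (Sum.inl j)]
    ring

theorem Rx_comm (i j : Fin 2) (f : D K) : Rx i (Rx j f) = Rx j (Rx i f) := by
  by_cases h : i = j
  · rw [h]
  · have h' : j ≠ i := Ne.symm h
    simp only [Rx_apply, map_add]
    rw [qd_ne (by simp), qd_ne (by simp), qd_uu_ne (by simp) (by simpa using h),
      qd_uu_ne (by simp) (by simpa using h'), qd_comm (Sum.inr i) (Sum.inr j)]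
    ring

theorem Lx_Rd (i j : Fin 2) (f : D K) : Lx i (Rd j f) = Rd j (Lx i f) := by
  simp only [Rd_apply, Lx_apply]; ring

theorem Lx_Rx (i j : Fin 2) (f : D K) : Lx i (Rx j f) = Rx j (Lx i f) := by
  simp only [Rx_apply, Lx_apply]
  rw [qd_ne (by simp)]
  ring

theorem Ld_Rd (i j : Fin 2) (f : D K) : Ld i (Rd j f) = Rd j (Ld i f) := by
  simp only [Rd_apply, Ld_apply]
  rw [qd_ne (by simp)]
  ring

theorem Ld_Rx (i j : Fin 2) (f : D K) : Ld i (Rx j f) = Rx j (Ld i f) := by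
  by_cases h : i = j
  · subst h
    simp only [Rx_apply, Ld_apply, map_add]
    rw [qd_self, qd_self, qd_uu_inl, qd_uu_inr, qd_comm (Sum.inl i) (Sum.inr i), uu]
    ring
  · have h' : j ≠ i := Ne.symm h
    simp only [Rx_apply, Ld_apply, map_add]
    rw [qd_ne (by simpa using h), qd_ne (by simpa using h'), qd_uu_ne (by simpa using h) (by simp),
      qd_uu_ne (by simp) (by simpa using h'), qd_comm (Sum.inl i) (Sum.inr j)]
    ring

/-- `∂_i x_j = q ^ δ_ij x_j ∂_i + δ_ij` on the left. -/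
theorem Ld_Lx (i j : Fin 2) (f : D K) :
    Ld i (Lx j f) = (qc i j : K) • Lx j (Ld i f) + (if i = j then f else 0) := by
  by_cases h : i = j
  · subst h
    rw [if_pos rfl, qc, if_pos rfl, smul_eq_C_mul]
    simp only [Lx_apply, Ld_apply]
    rw [qd_self, uu]
    ring
  · rw [if_neg h, qc, if_neg h, one_smul, add_zero]
    simp only [Lx_apply, Ld_apply]
    rw [qd_ne (by simpa using h)]
    ring

@[simp] theorem Lx_one (i : Fin 2) : Lx i (1 : D K) = X (Sum.inl i) := by simp [Lx_apply]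
@[simp] theorem Rx_one (i : Fin 2) : Rx i (1 : D K) = X (Sum.inl i) := by
  simp [Rx_apply, qd_one]
@[simp] theorem Ld_one (i : Fin 2) : Ld i (1 : D K) = X (Sum.inr i) := by
  simp [Ld_apply, qd_one]
@[simp] theorem Rd_one (i : Fin 2) : Rd i (1 : D K) = X (Sum.inr i) := by simp [Rd_apply]

/-! ### The windows -/

/-- `x`-degree of a monomial -/
def xdeg (m : (Fin 2 ⊕ Fin 2) →₀ ℕ) : ℤ := (m (Sum.inl 0) : ℤ) + m (Sum.inl 1)
/-- `ξ`-degree of a monomial -/
def kdeg (m : (Fin 2 ⊕ Fin 2) →₀ ℕ) : ℤ := (m (Sum.inr 0) : ℤ) + m (Sum.inr 1)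

variable (K) in
/-- Operators of weight `w` and order `≤ d`. -/
noncomputable def V (w d : ℤ) : Submodule K (D K) :=
  restrictSupport K {m | xdeg m = w + kdeg m ∧ kdeg m ≤ d}

variable (K) in
/-- Forms of degree `w` in `K[x₀,x₁]` (zero for `w < 0`). -/
noncomputable def S (w : ℤ) : Submodule K (MvPolynomial (Fin 2) K) :=
  restrictSupport K {m | (m 0 : ℤ) + m 1 = w}

theorem mem_V {w d : ℤ} {f : D K} :
    f ∈ V K w d ↔ ∀ m, coeff m f ≠ 0 → xdeg m = w + kdeg m ∧ kdeg m ≤ d := by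
  rw [V, mem_restrictSupport_iff]
  constructor
  · intro h m hm
    exact h (mem_support_iff.mpr hm)
  · intro h m hm
    exact h m (mem_support_iff.mp hm)

theorem mon_mem_V {w d : ℤ} {m : (Fin 2 ⊕ Fin 2) →₀ ℕ} {c : K}
    (h1 : xdeg m = w + kdeg m) (h2 : kdeg m ≤ d) : monomial m c ∈ V K w d := by
  rw [V, monomial_mem_restrictSupport]
  exact Or.inl ⟨h1, h2⟩

theorem V_le_comap {E : Type*} [AddCommGroup E] [Module K E] (T : D K →ₗ[K] E)
    (W : Submodule K E) {w d : ℤ}
    (h : ∀ m, xdeg m = w + kdeg m → kdeg m ≤ d → T (monomial m 1) ∈ W) :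
    ∀ f ∈ V K w d, T f ∈ W := by
  have : V K w d ≤ W.comap T := by
    rw [V, restrictSupport_eq_span, Submodule.span_le]
    rintro _ ⟨m, hm, rfl⟩
    exact h m hm.1 hm.2
  exact fun f hf => this hf

@[simp] theorem xdeg_add (m n : (Fin 2 ⊕ Fin 2) →₀ ℕ) : xdeg (m + n) = xdeg m + xdeg n := by
  simp only [xdeg, Finsupp.add_apply]; push_cast; ring
@[simp] theorem kdeg_add (m n : (Fin 2 ⊕ Fin 2) →₀ ℕ) : kdeg (m + n) = kdeg m + kdeg n := by
  simp only [kdeg, Finsupp.add_apply]; push_cast; ring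
@[simp] theorem xdeg_zero : xdeg 0 = 0 := by simp [xdeg]
@[simp] theorem kdeg_zero : kdeg 0 = 0 := by simp [kdeg]
@[simp] theorem xdeg_inl (i : Fin 2) : xdeg (Finsupp.single (Sum.inl i) 1) = 1 := by
  fin_cases i <;> simp [xdeg]
@[simp] theorem xdeg_inr (i : Fin 2) : xdeg (Finsupp.single (Sum.inr i) 1) = 0 := by
  fin_cases i <;> simp [xdeg]
@[simp] theorem kdeg_inl (i : Fin 2) : kdeg (Finsupp.single (Sum.inl i) 1) = 0 := by
  fin_cases i <;> simp [kdeg]
@[simp] theorem kdeg_inr (i : Fin 2) : kdeg (Finsupp.single (Sum.inr i) 1) = 1 := by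
  fin_cases i <;> simp [kdeg]

theorem xdeg_nonneg (m : (Fin 2 ⊕ Fin 2) →₀ ℕ) : 0 ≤ xdeg m := by unfold xdeg; positivity
theorem kdeg_nonneg (m : (Fin 2 ⊕ Fin 2) →₀ ℕ) : 0 ≤ kdeg m := by unfold kdeg; positivity

theorem exists_of_xdeg {m : (Fin 2 ⊕ Fin 2) →₀ ℕ} (h : 0 < xdeg m) : ∃ i, m (Sum.inl i) ≠ 0 := by
  by_contra hc
  push Not at hc
  simp [xdeg, hc] at h

theorem exists_of_kdeg {m : (Fin 2 ⊕ Fin 2) →₀ ℕ} (h : 0 < kdeg m) : ∃ i, m (Sum.inr i) ≠ 0 := by
  by_contra hc
  push Not at hc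
  simp [kdeg, hc] at h

theorem eq_single_add {σ : Type*} {m : σ →₀ ℕ} {a : σ} (h : m a ≠ 0) :
    m = Finsupp.single a 1 + (m - Finsupp.single a 1) := by
  rw [add_tsub_cancel_of_le]
  rw [Finsupp.single_le_iff]
  omega

theorem eq_zero_of_deg {m : (Fin 2 ⊕ Fin 2) →₀ ℕ} (h1 : xdeg m = 0) (h2 : kdeg m = 0) : m = 0 := by
  ext a
  unfold xdeg at h1
  unfold kdeg at h2
  rcases a with a | a <;> fin_cases a <;> simp <;> omega

/-- induction on monomials -/
theorem mon_induction {P : ((Fin 2 ⊕ Fin 2) →₀ ℕ) → Prop} (h0 : P 0)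
    (hk : ∀ i m, xdeg m = 0 → P m → P (Finsupp.single (Sum.inr i) 1 + m))
    (hx : ∀ i m, P m → P (Finsupp.single (Sum.inl i) 1 + m)) : ∀ m, P m := by
  have key : ∀ n : ℕ, ∀ m, xdeg m + kdeg m = n → P m := by
    intro n
    induction n with
    | zero =>
      intro m hm
      have h1 := xdeg_nonneg m
      have h2 := kdeg_nonneg m
      have : m = 0 := eq_zero_of_deg (by push_cast at hm; omega) (by push_cast at hm; omega)
      rw [this]; exact h0
    | succ n ih =>
      intro m hm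
      push_cast at hm
      by_cases h : 0 < xdeg m
      · obtain ⟨i, hi⟩ := exists_of_xdeg h
        have e := eq_single_add hi
        rw [e]
        apply hx
        apply ih
        have e1 := congrArg xdeg e
        have e2 := congrArg kdeg e
        simp only [xdeg_add, kdeg_add, xdeg_inl, kdeg_inl] at e1 e2
        omega
      · have h1 := xdeg_nonneg m
        obtain ⟨i, hi⟩ := exists_of_kdeg (m := m) (by omega)
        have e := eq_single_add hi
        have e1 := congrArg xdeg e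
        have e2 := congrArg kdeg e
        simp only [xdeg_add, kdeg_add, xdeg_inr, kdeg_inr] at e1 e2
        rw [e]
        apply hk
        · omega
        apply ih
        omega
  intro m
  have h1 := xdeg_nonneg m
  have h2 := kdeg_nonneg m
  exact key (xdeg m + kdeg m).toNat m (by omega)

theorem ext_mon {E : Type*} [AddCommGroup E] [Module K E] {T T' : D K →ₗ[K] E}
    (h : ∀ m, T (monomial m 1) = T' (monomial m 1)) : T = T' := by
  apply (basisMonomials (Fin 2 ⊕ Fin 2) K).ext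
  intro m
  rw [coe_basisMonomials]
  exact h m

theorem mon_single_add (a : Fin 2 ⊕ Fin 2) (m : (Fin 2 ⊕ Fin 2) →₀ ℕ) :
    (monomial (Finsupp.single a 1 + m) 1 : D K) = X a * monomial m 1 := by
  rw [X, monomial_mul, one_mul]

theorem V_mono {w d d' : ℤ} (h : d ≤ d') : V K w d ≤ V K w d' := by
  intro f hf
  rw [mem_V] at hf ⊢
  exact fun m hm => ⟨(hf m hm).1, (hf m hm).2.trans h⟩

theorem V_eq_bot {w d : ℤ} (h : d < 0) : V K w d = ⊥ := by
  rw [eq_bot_iff]
  intro f hf
  rw [mem_V] at hf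
  rw [Submodule.mem_bot]
  ext m
  rw [coeff_zero]
  by_contra hm
  have := hf m hm
  have := kdeg_nonneg m
  omega

theorem one_mem_V : (1 : D K) ∈ V K 0 0 := by
  have : (1 : D K) = monomial 0 1 := rfl
  rw [this]
  exact mon_mem_V (by simp) (by simp)

theorem V_zero_zero {f : D K} (h : f ∈ V K 0 0) : ∃ c : K, f = c • 1 := by
  rw [mem_V] at h
  refine ⟨coeff 0 f, ?_⟩
  ext m
  rw [coeff_smul, coeff_one]
  by_cases hm : m = 0
  · subst hm; simp
  · rw [if_neg (Ne.symm hm), smul_zero]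
    by_contra hc
    have h1 := h m hc
    have h2 := kdeg_nonneg m
    have h3 := xdeg_nonneg m
    exact hm (eq_zero_of_deg (by omega) (by omega))

theorem V_finite (w d : ℤ) : Module.Finite K (V K w d) := by
  rw [V, restrictSupport_eq_span]
  apply Module.Finite.span_of_finite
  apply Set.Finite.image
  apply Set.Finite.subset (Set.finite_Icc (0 : (Fin 2 ⊕ Fin 2) →₀ ℕ)
    (Finsupp.equivFunOnFinite.symm (fun _ => (w + d).toNat + d.toNat)))
  rintro m ⟨h1, h2⟩
  refine ⟨fun _ => Nat.zero_le _, ?_⟩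
  have h3 := kdeg_nonneg m
  have h4 := xdeg_nonneg m
  intro a
  unfold xdeg at h1 h4
  unfold kdeg at h1 h2 h3
  rcases a with a | a <;> fin_cases a <;> simp <;> omega

/-! closure -/

theorem X_mul_mem_V {w d : ℤ} {f : D K} (a : Fin 2 ⊕ Fin 2) :
    X a * f ∈ V K (w + xdeg (Finsupp.single a 1) - kdeg (Finsupp.single a 1))
      (d + kdeg (Finsupp.single a 1)) ↔ f ∈ V K w d := by
  rw [mem_V, mem_V]
  constructor
  · intro h m hm
    have := h (Finsupp.single a 1 + m) (by rwa [coeff_X_mul])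
    rw [xdeg_add, kdeg_add] at this
    omega
  · intro h m hm
    rw [coeff_X_mul'] at hm
    split_ifs at hm with hs
    · have e := eq_single_add (Finsupp.mem_support_iff.mp hs)
      have h1 := h _ hm
      rw [e, xdeg_add, kdeg_add]
      omega
    · exact absurd rfl hm

theorem Lx_mem_iff {w d : ℤ} {f : D K} (i : Fin 2) : Lx i f ∈ V K (w + 1) d ↔ f ∈ V K w d := by
  have := X_mul_mem_V (K := K) (w := w) (d := d) (f := f) (Sum.inl i)
  simpa [Lx_apply] using this

theorem Rd_mem_iff {w d : ℤ} {f : D K} (i : Fin 2) :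
    Rd i f ∈ V K (w - 1) (d + 1) ↔ f ∈ V K w d := by
  have := X_mul_mem_V (K := K) (w := w) (d := d) (f := f) (Sum.inr i)
  simpa [Rd_apply] using this

theorem Lx_mem {w d : ℤ} {f : D K} (h : f ∈ V K w d) (i : Fin 2) : Lx i f ∈ V K (w + 1) d :=
  (Lx_mem_iff i).mpr h

theorem Rd_mem {w d : ℤ} {f : D K} (h : f ∈ V K w d) (i : Fin 2) :
    Rd i f ∈ V K (w - 1) (d + 1) :=
  (Rd_mem_iff i).mpr h

theorem qd_mem_V {w d : ℤ} {f : D K} (h : f ∈ V K w d) (a : Fin 2 ⊕ Fin 2) :
    qd a f ∈ V K (w - xdeg (Finsupp.single a 1) + kdeg (Finsupp.single a 1))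
      (d - kdeg (Finsupp.single a 1)) := by
  refine V_le_comap (qd a) _ ?_ f h
  intro m h1 h2
  rw [qd_mon]
  by_cases hm : m a = 0
  · simp [hm, qn_zero]
  · have e := eq_single_add hm
    have e1 := congrArg xdeg e
    have e2 := congrArg kdeg e
    rw [xdeg_add] at e1
    rw [kdeg_add] at e2
    exact mon_mem_V (by omega) (by omega)

theorem qd_inl_mem {w d : ℤ} {f : D K} (h : f ∈ V K w d) (i : Fin 2) :
    qd (Sum.inl i) f ∈ V K (w - 1) d := by
  simpa using qd_mem_V h (Sum.inl i)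

theorem qd_inr_mem {w d : ℤ} {f : D K} (h : f ∈ V K w d) (i : Fin 2) :
    qd (Sum.inr i) f ∈ V K (w + 1) (d - 1) := by
  simpa using qd_mem_V h (Sum.inr i)

theorem uu_mul_mem {w d : ℤ} {f : D K} (h : f ∈ V K w d) (i : Fin 2) :
    uu i * f ∈ V K w (d + 1) := by
  have e : uu i * f = f + (QPar.q - 1 : K) • Lx i (Rd i f) := by
    rw [uu, smul_eq_C_mul, Lx_apply, Rd_apply, map_sub, map_one]; ring
  rw [e]
  refine Submodule.add_mem _ (V_mono (by omega) h) (Submodule.smul_mem _ _ ?_)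
  have := Lx_mem (Rd_mem h i) i
  simpa using this

theorem Rx_mem {w d : ℤ} {f : D K} (h : f ∈ V K w d) (i : Fin 2) : Rx i f ∈ V K (w + 1) d := by
  rw [Rx_apply]
  apply Submodule.add_mem _ (Lx_mem h i)
  have := uu_mul_mem (qd_inr_mem h i) i
  simpa using this

theorem Ld_mem {w d : ℤ} {f : D K} (h : f ∈ V K w d) (i : Fin 2) :
    Ld i f ∈ V K (w - 1) (d + 1) := by
  rw [Ld_apply]
  exact Submodule.add_mem _ (Rd_mem h i) (uu_mul_mem (qd_inl_mem h i) i)

/-! ### The automorphism `x^a ξ^b ↦ ∂^b x^a` of the space of symbols -/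

/-- the linear map sending `x^a ξ^b` to `T₀^{a₀} T₁^{a₁} T₂^{b₀} T₃^{b₁} z` -/
noncomputable def mk {Y : Type*} [AddCommGroup Y] [Module K Y]
    (T : Fin 2 ⊕ Fin 2 → Module.End K Y) (z : Y) : D K →ₗ[K] Y :=
  (basisMonomials (Fin 2 ⊕ Fin 2) K).constr K (fun m =>
    (T (Sum.inl 0) ^ (m (Sum.inl 0)) * (T (Sum.inl 1) ^ (m (Sum.inl 1)) *
      (T (Sum.inr 0) ^ (m (Sum.inr 0)) * T (Sum.inr 1) ^ (m (Sum.inr 1))))) z)

theorem mk_monomial {Y : Type*} [AddCommGroup Y] [Module K Y]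
    (T : Fin 2 ⊕ Fin 2 → Module.End K Y) (z : Y) (m : (Fin 2 ⊕ Fin 2) →₀ ℕ) :
    mk T z (monomial m 1) = (T (Sum.inl 0) ^ (m (Sum.inl 0)) * (T (Sum.inl 1) ^ (m (Sum.inl 1)) *
      (T (Sum.inr 0) ^ (m (Sum.inr 0)) * T (Sum.inr 1) ^ (m (Sum.inr 1))))) z := by
  have := (basisMonomials (Fin 2 ⊕ Fin 2) K).constr_basis K (fun m =>
    (T (Sum.inl 0) ^ (m (Sum.inl 0)) * (T (Sum.inl 1) ^ (m (Sum.inl 1)) *
      (T (Sum.inr 0) ^ (m (Sum.inr 0)) * T (Sum.inr 1) ^ (m (Sum.inr 1))))) z) m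
  rw [coe_basisMonomials] at this
  exact this

theorem mk_one {Y : Type*} [AddCommGroup Y] [Module K Y]
    (T : Fin 2 ⊕ Fin 2 → Module.End K Y) (z : Y) : mk T z 1 = z := by
  have : (1 : D K) = monomial 0 1 := rfl
  rw [this, mk_monomial]; simp

theorem mk_inl {Y : Type*} [AddCommGroup Y] [Module K Y]
    (T : Fin 2 ⊕ Fin 2 → Module.End K Y) (z : Y)
    (h : Commute (T (Sum.inl 0)) (T (Sum.inl 1))) (i : Fin 2) (f : D K) :
    mk T z (X (Sum.inl i) * f) = T (Sum.inl i) (mk T z f) := by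
  have : (mk T z) ∘ₗ (mulX (Sum.inl i)) = (T (Sum.inl i)) ∘ₗ (mk T z) := by
    apply ext_mon
    intro m
    simp only [LinearMap.comp_apply, mulX_apply, ← mon_single_add, mk_monomial]
    rw [← Module.End.mul_apply]
    congr 1
    fin_cases i
    · simp [pow_add, mul_assoc]
    · simp only [Finsupp.add_apply, Finsupp.single_apply, Fin.mk_one]
      simp only [Sum.inl.injEq, reduceCtorEq, if_false, if_true, zero_add, one_ne_zero,
        pow_add, pow_one]
      rw [← mul_assoc, ← mul_assoc, ← mul_assoc, ((h.pow_left _).eq)]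
      simp only [mul_assoc]
  exact LinearMap.congr_fun this f

theorem mk_inr {Y : Type*} [AddCommGroup Y] [Module K Y]
    (T : Fin 2 ⊕ Fin 2 → Module.End K Y) (z : Y)
    (h : ∀ i j, Commute (T (Sum.inl i)) (T (Sum.inr j)))
    (h' : Commute (T (Sum.inr 0)) (T (Sum.inr 1))) (i : Fin 2) (f : D K) :
    mk T z (X (Sum.inr i) * f) = T (Sum.inr i) (mk T z f) := by
  have : (mk T z) ∘ₗ (mulX (Sum.inr i)) = (T (Sum.inr i)) ∘ₗ (mk T z) := by
    apply ext_mon
    intro m
    simp only [LinearMap.comp_apply, mulX_apply, ← mon_single_add, mk_monomial]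
    rw [← Module.End.mul_apply]
    congr 1
    have h1 := ((h 0 i).pow_left (m (Sum.inl 0))).eq
    have h2 := ((h 1 i).pow_left (m (Sum.inl 1))).eq
    have h3 : T (Sum.inr i) * (T (Sum.inr 0) ^ (m (Sum.inr 0)) * T (Sum.inr 1) ^ (m (Sum.inr 1)))
        = (T (Sum.inr 0) ^ ((Finsupp.single (Sum.inr i) 1 + m : (Fin 2 ⊕ Fin 2) →₀ ℕ) (Sum.inr 0)) *
          T (Sum.inr 1) ^ ((Finsupp.single (Sum.inr i) 1 + m : (Fin 2 ⊕ Fin 2) →₀ ℕ)
            (Sum.inr 1))) := by
      fin_cases i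
      · simp [pow_add, mul_assoc]
      · simp only [Finsupp.add_apply, Finsupp.single_apply, Fin.mk_one]
        simp only [Sum.inr.injEq, if_false, if_true, zero_add, one_ne_zero,
          pow_add, pow_one]
        rw [← mul_assoc, ← mul_assoc, ((h'.pow_left _).eq)]
    rw [← h3]
    have e0 : (Finsupp.single (Sum.inr i) 1 + m : (Fin 2 ⊕ Fin 2) →₀ ℕ) (Sum.inl 0) =
      m (Sum.inl 0) := by simp
    have e1 : (Finsupp.single (Sum.inr i) 1 + m : (Fin 2 ⊕ Fin 2) →₀ ℕ) (Sum.inl 1) =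
      m (Sum.inl 1) := by simp
    rw [e0, e1]
    calc T (Sum.inl 0) ^ m (Sum.inl 0) * (T (Sum.inl 1) ^ m (Sum.inl 1) *
          (T (Sum.inr i) * (T (Sum.inr 0) ^ m (Sum.inr 0) * T (Sum.inr 1) ^ m (Sum.inr 1))))
        = T (Sum.inl 0) ^ m (Sum.inl 0) * ((T (Sum.inl 1) ^ m (Sum.inl 1) *
          T (Sum.inr i)) * (T (Sum.inr 0) ^ m (Sum.inr 0) * T (Sum.inr 1) ^ m (Sum.inr 1))) := by
          simp only [mul_assoc]
      _ = (T (Sum.inl 0) ^ m (Sum.inl 0) * T (Sum.inr i)) * (T (Sum.inl 1) ^ m (Sum.inl 1) *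
            (T (Sum.inr 0) ^ m (Sum.inr 0) * T (Sum.inr 1) ^ m (Sum.inr 1))) := by
          rw [h2]; simp only [mul_assoc]
      _ = _ := by rw [h1]; simp only [mul_assoc]
  exact LinearMap.congr_fun this f

/-- the operators `x_i ↦` right multiplication by `x_i`, `ξ_i ↦` left multiplication by `∂_i` -/
noncomputable def T : Fin 2 ⊕ Fin 2 → Module.End K (D K)
  | Sum.inl i => Rx i
  | Sum.inr i => Ld i

variable (K) in
/-- `x^a ξ^b ↦ ∂^b x^a` -/
noncomputable def E : D K →ₗ[K] D K := mk T 1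

theorem E_one : E K 1 = 1 := mk_one _ _

theorem T_inl (i : Fin 2) : (T (Sum.inl i) : Module.End K (D K)) = Rx i := rfl

theorem T_inr (i : Fin 2) : (T (Sum.inr i) : Module.End K (D K)) = Ld i := rfl

theorem E_Lx (i : Fin 2) (f : D K) : E K (Lx i f) = Rx i (E K f) := by
  rw [Lx_apply, E, mk_inl, T_inl]
  rw [T_inl, T_inl]
  exact LinearMap.ext fun f => Rx_comm 0 1 f

theorem E_Rd (i : Fin 2) (f : D K) : E K (Rd i f) = Ld i (E K f) := by
  rw [Rd_apply, E, mk_inr, T_inr]
  · intro i j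
    rw [T_inl, T_inr]
    exact LinearMap.ext fun f => (Ld_Rx j i f).symm
  · rw [T_inr, T_inr]
    exact LinearMap.ext fun f => Ld_comm 0 1 f

theorem E_mem {w d : ℤ} {f : D K} (h : f ∈ V K w d) : E K f ∈ V K w d := by
  have key : ∀ m : (Fin 2 ⊕ Fin 2) →₀ ℕ,
      E K (monomial m 1) ∈ V K (xdeg m - kdeg m) (kdeg m) := by
    intro m
    induction m using mon_induction with
    | h0 =>
      have : (monomial 0 1 : D K) = 1 := rfl
      rw [this, E_one]
      simpa using one_mem_V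
    | hk i m _ ih =>
      rw [mon_single_add, ← Rd_apply, E_Rd]
      have := Ld_mem ih i
      rw [xdeg_add, kdeg_add, xdeg_inr, kdeg_inr]
      convert this using 2 <;> ring
    | hx i m ih =>
      rw [mon_single_add, ← Lx_apply, E_Lx]
      have := Rx_mem ih i
      rw [xdeg_add, kdeg_add, xdeg_inl, kdeg_inl]
      convert this using 2 <;> ring
  refine V_le_comap (E K) _ ?_ f h
  intro m h1 h2
  have h3 := key m
  have : w = xdeg m - kdeg m := by omega
  subst this
  exact V_mono h2 h3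

theorem Ld_mon_of_xdeg {m : (Fin 2 ⊕ Fin 2) →₀ ℕ} (h : xdeg m = 0) (i : Fin 2) :
    Ld i (monomial m (1 : K)) = monomial (Finsupp.single (Sum.inr i) 1 + m) 1 := by
  rw [Ld_apply, mon_single_add, qd_mon]
  have : m (Sum.inl i) = 0 := by
    unfold xdeg at h
    fin_cases i <;> simp <;> omega
  simp [this, qn_zero]

/-- the exponent of `q` in the leading coefficient -/
def NN (m : (Fin 2 ⊕ Fin 2) →₀ ℕ) : ℕ :=
  m (Sum.inl 0) * m (Sum.inr 0) + m (Sum.inl 1) * m (Sum.inr 1)

variable (K) in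
/-- the leading part of `E` -/
noncomputable def Q0 : D K →ₗ[K] D K :=
  (basisMonomials (Fin 2 ⊕ Fin 2) K).constr K fun m => monomial m (QPar.q ^ NN m)

theorem Q0_mon (m : (Fin 2 ⊕ Fin 2) →₀ ℕ) :
    Q0 K (monomial m 1) = monomial m (QPar.q ^ NN m) := by
  have := (basisMonomials (Fin 2 ⊕ Fin 2) K).constr_basis K
    (fun m => (monomial m (QPar.q ^ NN m) : D K)) m
  rw [coe_basisMonomials] at this
  exact this

theorem coeff_Q0 (m : (Fin 2 ⊕ Fin 2) →₀ ℕ) (f : D K) :
    coeff m (Q0 K f) = QPar.q ^ NN m * coeff m f := by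
  have : (lcoeff K m) ∘ₗ (Q0 K) = (QPar.q ^ NN m : K) • (lcoeff K m) := by
    apply ext_mon
    intro n
    simp only [LinearMap.comp_apply, LinearMap.smul_apply, lcoeff_apply, Q0_mon, smul_eq_mul]
    rw [coeff_monomial, coeff_monomial]
    by_cases h : n = m
    · rw [if_pos h, if_pos h, h, mul_one]
    · rw [if_neg h, if_neg h, mul_zero]
  exact LinearMap.congr_fun this f

theorem E_sub_mon (m : (Fin 2 ⊕ Fin 2) →₀ ℕ) :
    E K (monomial m 1) - Q0 K (monomial m 1) ∈ V K (xdeg m - kdeg m) (kdeg m - 1) := by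
  have hE0 : ∀ m : (Fin 2 ⊕ Fin 2) →₀ ℕ, xdeg m = 0 →
      E K (monomial m 1) = monomial m (1 : K) := by
    intro m
    induction m using mon_induction with
    | h0 =>
      intro _
      have : (monomial 0 1 : D K) = 1 := rfl
      rw [this, E_one]
    | hk i m hm ih =>
      intro _
      rw [mon_single_add, ← Rd_apply, E_Rd, ih hm, Ld_mon_of_xdeg hm, mon_single_add]
      rfl
    | hx i m ih =>
      intro h
      have := xdeg_nonneg m
      rw [xdeg_add, xdeg_inl] at h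
      omega
  induction m using mon_induction with
  | h0 =>
    rw [hE0 0 (by simp), Q0_mon]
    simp [NN]
  | hk i m hm ih =>
    rw [hE0 _ (by simp [hm]), Q0_mon]
    have : NN (Finsupp.single (Sum.inr i) 1 + m) = 0 := by
      unfold NN
      unfold xdeg at hm
      have h0 : m (Sum.inl 0) = 0 := by omega
      have h1 : m (Sum.inl 1) = 0 := by omega
      simp [h0, h1]
    rw [this, pow_zero, sub_self]
    exact Submodule.zero_mem _
  | hx i m ih =>
    have e1 : E K (monomial (Finsupp.single (Sum.inl i) 1 + m) 1) =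
        Rx i (E K (monomial m 1) - Q0 K (monomial m 1)) + Rx i (Q0 K (monomial m 1)) := by
      rw [mon_single_add, ← Lx_apply, E_Lx, map_sub]
      abel
    have e2 : Rx i (Q0 K (monomial m 1)) - Q0 K (monomial (Finsupp.single (Sum.inl i) 1 + m) 1) =
        (QPar.q ^ NN m : K) • qd (Sum.inr i) (monomial m 1) := by
      have hN : NN (Finsupp.single (Sum.inl i) 1 + m) = NN m + m (Sum.inr i) := by
        unfold NN
        fin_cases i <;> simp <;> ring
      have hq : (QPar.q : K) ^ m (Sum.inr i) = 1 + (QPar.q - 1) * qn (m (Sum.inr i)) := by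
        have key : ∀ n : ℕ, (QPar.q : K) ^ n = 1 + (QPar.q - 1) * qn n := by
          intro n
          induction n with
          | zero => simp [qn_zero]
          | succ n ih => rw [qn_succ, pow_succ, ih]; ring
        exact key _
      have hx : (X (Sum.inl i) * (X (Sum.inr i) * qd (Sum.inr i) (monomial m 1)) : D K) =
          C (qn (m (Sum.inr i))) * (X (Sum.inl i) * monomial m 1) := by
        rw [qd_mon]
        by_cases h : m (Sum.inr i) = 0
        · rw [h, qn_zero]; simp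
        · have e4 : Finsupp.single (Sum.inr i) 1 + (m - Finsupp.single (Sum.inr i) 1) = m := by
            rw [add_tsub_cancel_of_le]
            rw [Finsupp.single_le_iff]
            omega
          have e5 : (X (Sum.inr i) * monomial (m - Finsupp.single (Sum.inr i) 1)
              (qn (m (Sum.inr i))) : D K) = C (qn (m (Sum.inr i))) * monomial m 1 := by
            rw [X, monomial_mul, e4, one_mul, C_mul_monomial, mul_one]
          rw [e5]; ring
      have hm1 : Q0 K (monomial m 1) = C (QPar.q ^ NN m) * monomial m 1 := by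
        rw [Q0_mon, C_mul_monomial, mul_one]
      have hm2 : Q0 K (monomial (Finsupp.single (Sum.inl i) 1 + m) 1) =
          C (QPar.q ^ NN m) * (C (QPar.q ^ m (Sum.inr i)) * (X (Sum.inl i) * monomial m 1)) := by
        rw [Q0_mon, hN, pow_add, ← mon_single_add, C_mul_monomial, C_mul_monomial, mul_one]
      have hq' : (C (QPar.q ^ m (Sum.inr i)) : D K) =
          1 + (C QPar.q - 1) * C (qn (m (Sum.inr i))) := by
        rw [hq, map_add, map_mul, map_sub, map_one]
      rw [hm1, hm2, Rx_apply, qd_C_mul, hq', smul_eq_C_mul, uu]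
      linear_combination (C (QPar.q ^ NN m) * (C QPar.q - 1)) * hx
    rw [e1, add_sub_assoc, e2]
    refine Submodule.add_mem _ ?_ (Submodule.smul_mem _ _ ?_)
    · have := Rx_mem ih i
      rw [xdeg_add, kdeg_add, xdeg_inl, kdeg_inl]
      convert this using 2 <;> ring
    · have hm : monomial m (1 : K) ∈ V K (xdeg m - kdeg m) (kdeg m) :=
        mon_mem_V (by ring) le_rfl
      have := qd_inr_mem hm i
      rw [xdeg_add, kdeg_add, xdeg_inl, kdeg_inl]
      convert this using 2 <;> ring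

theorem E_sub_mem {w d : ℤ} {f : D K} (h : f ∈ V K w d) :
    E K f - Q0 K f ∈ V K w (d - 1) := by
  refine V_le_comap (E K - Q0 K) _ ?_ f h
  intro m h1 h2
  have h3 := E_sub_mon (K := K) m
  have : w = xdeg m - kdeg m := by omega
  subst this
  exact V_mono (by omega) h3

/-- polynomials of order `< n` -/
noncomputable def UU (n : ℕ) : Submodule K (D K) := restrictSupport K {m | kdeg m < n}

theorem mem_UU {n : ℕ} {f : D K} : f ∈ UU n ↔ ∀ m, coeff m f ≠ 0 → kdeg m < n := by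
  rw [UU, mem_restrictSupport_iff]
  constructor
  · intro h m hm
    exact h (mem_support_iff.mpr hm)
  · intro h m hm
    exact h m (mem_support_iff.mp hm)

theorem E_sub_UU {n : ℕ} {f : D K} (h : f ∈ UU (K := K) (n + 1)) :
    E K f - Q0 K f ∈ UU (K := K) n := by
  have : UU (K := K) (n + 1) ≤ (UU (K := K) n).comap (E K - Q0 K) := by
    rw [UU, restrictSupport_eq_span, Submodule.span_le]
    rintro _ ⟨m, hm, rfl⟩
    have h3 := E_sub_mon (K := K) m
    rw [mem_V] at h3
    change E K (monomial m 1) - Q0 K (monomial m 1) ∈ UU n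
    rw [mem_UU]
    intro m' hm'
    have h4 := (h3 m' hm').2
    have h5 : kdeg m < ((n + 1 : ℕ) : ℤ) := hm
    push_cast at h5
    omega
  exact this h

theorem E_ker (n : ℕ) : ∀ f : D K, f ∈ UU (K := K) n → E K f = 0 → f = 0 := by
  induction n with
  | zero =>
    intro f hf _
    rw [mem_UU] at hf
    ext m
    rw [coeff_zero]
    by_contra hm
    have := hf m hm
    have := kdeg_nonneg m
    omega
  | succ n ih =>
    intro f hf h0
    apply ih f _ h0
    have h1 := E_sub_UU hf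
    rw [h0, zero_sub] at h1
    rw [mem_UU] at h1 ⊢
    intro m hm
    apply h1
    rw [coeff_neg, coeff_Q0]
    exact neg_ne_zero.2 (mul_ne_zero (pow_ne_zero _ QPar.ne) hm)

theorem exists_UU (f : D K) : ∃ n, f ∈ UU (K := K) n := by
  refine ⟨f.support.sup (fun m => (kdeg m).toNat) + 1, ?_⟩
  rw [mem_UU]
  intro m hm
  have h1 : (kdeg m).toNat ≤ f.support.sup (fun m => (kdeg m).toNat) :=
    Finset.le_sup (f := fun m => (kdeg m).toNat) (mem_support_iff.2 hm)
  have h2 := kdeg_nonneg m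
  push_cast
  omega

theorem E_inj : Function.Injective (E K) := by
  rw [injective_iff_map_eq_zero]
  intro f hf
  obtain ⟨n, hn⟩ := exists_UU f
  exact E_ker n f hn hf

theorem exists_E_mem (n : ℕ) : ∀ {w d : ℤ}, d < n → ∀ f ∈ V K w d, ∃ g ∈ V K w d, E K g = f := by
  induction n with
  | zero =>
    intro w d hd f hf
    rw [V_eq_bot (by simpa using hd), Submodule.mem_bot] at hf
    exact ⟨0, Submodule.zero_mem _, by rw [hf, map_zero]⟩
  | succ n ih =>
    intro w d hd f hf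
    obtain ⟨g, hg, hgf⟩ : ∃ g ∈ V K w d, Q0 K g = f := by
      refine ⟨(basisMonomials (Fin 2 ⊕ Fin 2) K).constr K
        (fun m => (monomial m (QPar.q ^ NN m)⁻¹ : D K)) f, ?_, ?_⟩
      · refine V_le_comap _ _ ?_ f hf
        intro m h1 h2
        have := (basisMonomials (Fin 2 ⊕ Fin 2) K).constr_basis K
          (fun m => (monomial m (QPar.q ^ NN m)⁻¹ : D K)) m
        rw [coe_basisMonomials] at this
        rw [this]
        exact mon_mem_V h1 h2
      · have : (Q0 K) ∘ₗ ((basisMonomials (Fin 2 ⊕ Fin 2) K).constr K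
            (fun m => (monomial m (QPar.q ^ NN m)⁻¹ : D K))) = LinearMap.id := by
          apply ext_mon
          intro m
          have := (basisMonomials (Fin 2 ⊕ Fin 2) K).constr_basis K
            (fun m => (monomial m (QPar.q ^ NN m)⁻¹ : D K)) m
          rw [coe_basisMonomials] at this
          rw [LinearMap.comp_apply, this, LinearMap.id_apply]
          have e : (monomial m (QPar.q ^ NN m)⁻¹ : D K) = (QPar.q ^ NN m : K)⁻¹ • monomial m 1 := by
            rw [smul_monomial, smul_eq_mul, mul_one]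
          rw [e, map_smul, Q0_mon, smul_monomial, smul_eq_mul,
            inv_mul_cancel₀ (pow_ne_zero _ (QPar.ne (K := K)))]
        exact LinearMap.congr_fun this f
    obtain ⟨g', hg', h'⟩ := ih (w := w) (d := d - 1) (by push_cast at hd; omega)
      (E K g - f) (by rw [← hgf]; exact E_sub_mem hg)
    exact ⟨g - g', Submodule.sub_mem _ hg (V_mono (by omega) hg'), by
      rw [map_sub, h', sub_sub_cancel]⟩

theorem E_surj : Function.Surjective (E K) := by
  intro f
  have h : (⊤ : Submodule K (D K)) ≤ LinearMap.range (E K) := by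
    rw [← (basisMonomials (Fin 2 ⊕ Fin 2) K).span_eq, Submodule.span_le]
    rintro _ ⟨m, rfl⟩
    rw [coe_basisMonomials]
    have hm : monomial m (1 : K) ∈ V K (xdeg m - kdeg m) (kdeg m) :=
      mon_mem_V (by ring) le_rfl
    obtain ⟨g, _, hg⟩ := exists_E_mem ((kdeg m).toNat + 1) (d := kdeg m) (by
      have := kdeg_nonneg m
      push_cast
      omega) _ hm
    exact ⟨g, hg⟩
  exact h (Submodule.mem_top (x := f))

variable (K) in
/-- the inverse of `E` -/
noncomputable def E' : D K →ₗ[K] D K :=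
  (LinearEquiv.ofBijective (E K) ⟨E_inj, E_surj⟩).symm.toLinearMap

theorem E_E' (f : D K) : E K (E' K f) = f :=
  LinearEquiv.apply_symm_apply (LinearEquiv.ofBijective (E K) ⟨E_inj, E_surj⟩) f

theorem E'_E (f : D K) : E' K (E K f) = f :=
  LinearEquiv.symm_apply_apply (LinearEquiv.ofBijective (E K) ⟨E_inj, E_surj⟩) f

theorem E'_inj : Function.Injective (E' K) := by
  intro f g h
  rw [← E_E' f, h, E_E']

theorem E'_mem {w d : ℤ} {f : D K} (h : f ∈ V K w d) : E' K f ∈ V K w d := by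
  obtain ⟨g, hg, rfl⟩ := exists_E_mem (d.toNat + 1) (by push_cast; omega) f h
  rwa [E'_E]

theorem E'_Rx (i : Fin 2) (f : D K) : E' K (Rx i f) = Lx i (E' K f) := by
  apply E_inj
  rw [E_E', E_Lx, E_E']

theorem E'_Ld (i : Fin 2) (f : D K) : E' K (Ld i f) = Rd i (E' K f) := by
  apply E_inj
  rw [E_E', E_Rd, E_E']

theorem E'_one : E' K 1 = 1 := by
  apply E_inj
  rw [E_E', E_one]

theorem E_mem_iff {w d : ℤ} {f : D K} : E' K f ∈ V K w d ↔ f ∈ V K w d :=
  ⟨fun h => by simpa [E_E'] using E_mem h, E'_mem⟩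

theorem Rx_mem_iff {w d : ℤ} {f : D K} (i : Fin 2) :
    Rx i f ∈ V K (w + 1) d ↔ f ∈ V K w d := by
  rw [← E_mem_iff, E'_Rx, Lx_mem_iff, E_mem_iff]

theorem Ld_mem_iff {w d : ℤ} {f : D K} (i : Fin 2) :
    Ld i f ∈ V K (w - 1) (d + 1) ↔ f ∈ V K w d := by
  rw [← E_mem_iff, E'_Ld, Rd_mem_iff, E_mem_iff]

theorem Lx_inj (i : Fin 2) : Function.Injective (Lx i : D K → D K) := by
  intro f g h
  rw [Lx_apply, Lx_apply] at h
  exact mul_left_cancel₀ (X_ne_zero _) h

theorem Rd_inj (i : Fin 2) : Function.Injective (Rd i : D K → D K) := by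
  intro f g h
  rw [Rd_apply, Rd_apply] at h
  exact mul_left_cancel₀ (X_ne_zero _) h

theorem Rx_inj (i : Fin 2) : Function.Injective (Rx i : D K → D K) := by
  intro f g h
  apply E'_inj (K := K)
  apply Lx_inj i
  rw [← E'_Rx, ← E'_Rx, h]

theorem Ld_inj (i : Fin 2) : Function.Injective (Ld i : D K → D K) := by
  intro f g h
  apply E'_inj (K := K)
  apply Rd_inj i
  rw [← E'_Ld, ← E'_Ld, h]

/-! ### Koszul exactness -/

theorem X_kos {a b : Fin 2 ⊕ Fin 2} (hab : a ≠ b) {p q : D K} (h : X b * p = X a * q) :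
    ∃ z, p = X a * z ∧ q = X b * z := by
  have h1 : (X a : D K) ∣ X b * p := ⟨q, h⟩
  rw [X_dvd_mul_iff, X_dvd_X] at h1
  rcases h1 with h1 | ⟨z, rfl⟩
  · exact absurd h1 hab
  · refine ⟨z, rfl, ?_⟩
    apply mul_left_cancel₀ (X_ne_zero (R := K) a)
    rw [← h]; ring

theorem Lx_kos {w d : ℤ} {p q : D K} (hp : p ∈ V K (w + 1) d) (h : Lx 1 p = Lx 0 q) :
    ∃ z ∈ V K w d, p = Lx 0 z ∧ q = Lx 1 z := by
  obtain ⟨z, hz1, hz2⟩ := X_kos (by simp) h
  refine ⟨z, ?_, hz1, hz2⟩
  rw [← Lx_mem_iff 0, Lx_apply, ← hz1]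
  exact hp

theorem Rd_kos {w d : ℤ} {p q : D K} (hp : p ∈ V K (w - 1) (d + 1)) (h : Rd 1 p = Rd 0 q) :
    ∃ z ∈ V K w d, p = Rd 0 z ∧ q = Rd 1 z := by
  obtain ⟨z, hz1, hz2⟩ := X_kos (by simp) h
  refine ⟨z, ?_, hz1, hz2⟩
  rw [← Rd_mem_iff 0, Rd_apply, ← hz1]
  exact hp

theorem Rx_kos {w d : ℤ} {p q : D K} (hp : p ∈ V K (w + 1) d) (h : Rx 1 p = Rx 0 q) :
    ∃ z ∈ V K w d, p = Rx 0 z ∧ q = Rx 1 z := by
  obtain ⟨z, hz, h1, h2⟩ := Lx_kos (E'_mem hp) (q := E' K q)
    (by rw [← E'_Rx, h, E'_Rx])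
  refine ⟨E K z, E_mem hz, ?_, ?_⟩
  · rw [← E_Lx, ← h1, E_E']
  · rw [← E_Lx, ← h2, E_E']

theorem Ld_kos {w d : ℤ} {p q : D K} (hp : p ∈ V K (w - 1) (d + 1)) (h : Ld 1 p = Ld 0 q) :
    ∃ z ∈ V K w d, p = Ld 0 z ∧ q = Ld 1 z := by
  obtain ⟨z, hz, h1, h2⟩ := Rd_kos (E'_mem hp) (q := E' K q)
    (by rw [← E'_Ld, h, E'_Ld])
  refine ⟨E K z, E_mem hz, ?_, ?_⟩
  · rw [← E_Rd, ← h1, E_E']
  · rw [← E_Rd, ← h2, E_E']

/-- the sum `c • 1 + Lx 0 p + Lx 1 q` as the image of a submodule -/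
theorem Lx_surj {w d : ℤ} (hw : 0 ≤ w) {f : D K} (h : f ∈ V K (w + 1) d) :
    ∃ p ∈ V K w d, ∃ q ∈ V K w d, f = Lx 0 p + Lx 1 q := by
  have := V_le_comap (LinearMap.id : D K →ₗ[K] D K)
    ((V K w d).map (Lx 0) ⊔ (V K w d).map (Lx 1)) (w := w + 1) (d := d) (by
      intro m h1 h2
      have h3 := kdeg_nonneg m
      obtain ⟨i, hi⟩ := exists_of_xdeg (m := m) (by omega)
      have e := eq_single_add hi
      have e1 := congrArg xdeg e
      have e2 := congrArg kdeg e
      rw [xdeg_add, xdeg_inl] at e1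
      rw [kdeg_add, kdeg_inl] at e2
      have hm : monomial (m - Finsupp.single (Sum.inl i) 1) 1 ∈ V K w d :=
        mon_mem_V (by omega) (by omega)
      rw [e, LinearMap.id_apply, mon_single_add, ← Lx_apply]
      fin_cases i
      · exact Submodule.mem_sup_left (Submodule.mem_map_of_mem hm)
      · exact Submodule.mem_sup_right (Submodule.mem_map_of_mem hm)) f h
  obtain ⟨_, ⟨p, hp, rfl⟩, _, ⟨q, hq, rfl⟩, e⟩ := Submodule.mem_sup.mp this
  exact ⟨p, hp, q, hq, e.symm⟩

theorem Rx_surj {w d : ℤ} (hw : 0 ≤ w) {f : D K} (h : f ∈ V K (w + 1) d) :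
    ∃ p ∈ V K w d, ∃ q ∈ V K w d, f = Rx 0 p + Rx 1 q := by
  obtain ⟨p, hp, q, hq, e⟩ := Lx_surj hw (E'_mem h)
  refine ⟨E K p, E_mem hp, E K q, E_mem hq, ?_⟩
  rw [← E_Lx, ← E_Lx, ← map_add, ← e, E_E']

theorem Lx_surj0 {d : ℤ} {f : D K} (h : f ∈ V K 0 d) :
    ∃ c : K, ∃ p ∈ V K (-1) d, ∃ q ∈ V K (-1) d, f = c • 1 + Lx 0 p + Lx 1 q := by
  have := V_le_comap (LinearMap.id : D K →ₗ[K] D K)
    (Submodule.span K {1} ⊔ ((V K (-1) d).map (Lx 0) ⊔ (V K (-1) d).map (Lx 1)))
    (w := 0) (d := d) (by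
      intro m h1 h2
      have h3 := kdeg_nonneg m
      by_cases hk : kdeg m = 0
      · have hm0 : m = 0 := eq_zero_of_deg (by omega) hk
        subst hm0
        exact Submodule.mem_sup_left (Submodule.mem_span_singleton_self _)
      · obtain ⟨i, hi⟩ := exists_of_xdeg (m := m) (by omega)
        have e := eq_single_add hi
        have e1 := congrArg xdeg e
        have e2 := congrArg kdeg e
        rw [xdeg_add, xdeg_inl] at e1
        rw [kdeg_add, kdeg_inl] at e2
        have hm : monomial (m - Finsupp.single (Sum.inl i) 1) 1 ∈ V K (-1) d :=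
          mon_mem_V (by omega) (by omega)
        rw [e, LinearMap.id_apply, mon_single_add, ← Lx_apply]
        apply Submodule.mem_sup_right
        fin_cases i
        · exact Submodule.mem_sup_left (Submodule.mem_map_of_mem hm)
        · exact Submodule.mem_sup_right (Submodule.mem_map_of_mem hm)) f h
  obtain ⟨c, hc, r, hr, e⟩ := Submodule.mem_sup.mp this
  obtain ⟨c, rfl⟩ := Submodule.mem_span_singleton.mp hc
  obtain ⟨_, ⟨p, hp, rfl⟩, _, ⟨q, hq, rfl⟩, e'⟩ := Submodule.mem_sup.mp hr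
  exact ⟨c, p, hp, q, hq, by rw [add_assoc, e', e]; rfl⟩

/-! ### Evaluation at `1`: `ev : D → D / (D∂₀ + D∂₁) = K[x₀,x₁]`, and the left analogue -/

/-- `ev (∑ x^a ∂^b) = ∑_{b=0} x^a`. -/
noncomputable def ev : D K →ₗ[K] MvPolynomial (Fin 2) K :=
  (aeval (Sum.elim (fun i => X i) (fun _ => 0)) :
    D K →ₐ[K] MvPolynomial (Fin 2) K).toLinearMap

theorem ev_one : ev (1 : D K) = 1 := by
  simp [ev]

theorem ev_Lx (i : Fin 2) (f : D K) : ev (Lx i f) = X i * ev f := by
  simp [ev, Lx_apply]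

theorem ev_Rd (i : Fin 2) (f : D K) : ev (Rd i f) = 0 := by
  simp [ev, Rd_apply]

theorem ev_mul (f g : D K) : ev (f * g) = ev f * ev g :=
  map_mul (aeval (Sum.elim (fun i => X i) (fun _ => 0)) : D K →ₐ[K] MvPolynomial (Fin 2) K) f g

theorem ev_C (c : K) : ev (C c : D K) = C c := by
  simp [ev]

theorem ev_uu (i : Fin 2) : ev (uu i : D K) = 1 := by
  simp [ev, uu]

theorem ev_qd_inl (i : Fin 2) (f : D K) : ev (qd (Sum.inl i) f) = qd i (ev f) := by
  have : ev ∘ₗ (qd (Sum.inl i)) = (qd i) ∘ₗ (ev : D K →ₗ[K] _) := by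
    apply ext_mon
    intro m
    induction m using mon_induction with
    | h0 =>
      have : (monomial 0 1 : D K) = 1 := rfl
      rw [LinearMap.comp_apply, LinearMap.comp_apply, this, ev_one, qd_one, qd_one, map_zero]
    | hk j m _ ih =>
      rw [LinearMap.comp_apply, LinearMap.comp_apply, mon_single_add, qd_ne (by simp),
        ← Rd_apply, ← Rd_apply, ev_Rd, ev_Rd, map_zero]
    | hx j m ih =>
      rw [LinearMap.comp_apply, LinearMap.comp_apply] at ih ⊢
      rw [mon_single_add, ← Lx_apply, ev_Lx]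
      by_cases h : i = j
      · subst h
        rw [Lx_apply, qd_self, qd_self, map_add, ev_mul, ev_mul, ih, ev_C,
          show ev (X (Sum.inl i) : D K) = X i from by simp [ev]]
      · rw [Lx_apply, qd_ne (by simpa using h), qd_ne h, ← Lx_apply, ev_Lx, ih]
  exact LinearMap.congr_fun this f

theorem ev_Ld (i : Fin 2) (f : D K) : ev (Ld i f) = qd i (ev f) := by
  rw [Ld_apply, map_add, ev_mul (uu i), ev_uu, one_mul, ev_qd_inl, ← Rd_apply, ev_Rd, zero_add]

theorem mem_S {w : ℤ} {p : MvPolynomial (Fin 2) K} :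
    p ∈ S K w ↔ ∀ m, coeff m p ≠ 0 → (m 0 : ℤ) + m 1 = w := by
  rw [S, mem_restrictSupport_iff]
  constructor
  · intro h m hm
    exact h (mem_support_iff.mpr hm)
  · intro h m hm
    exact h m (mem_support_iff.mp hm)

theorem S_le_comap {E : Type*} [AddCommGroup E] [Module K E] (T : MvPolynomial (Fin 2) K →ₗ[K] E)
    (W : Submodule K E) {w : ℤ}
    (h : ∀ m : Fin 2 →₀ ℕ, (m 0 : ℤ) + m 1 = w → T (monomial m 1) ∈ W) :
    ∀ f ∈ S K w, T f ∈ W := by
  have : S K w ≤ W.comap T := by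
    rw [S, restrictSupport_eq_span, Submodule.span_le]
    rintro _ ⟨m, hm, rfl⟩
    exact h m hm
  exact fun f hf => this hf

theorem S_neg {w : ℤ} (hw : w < 0) : S K w = ⊥ := by
  rw [eq_bot_iff]
  intro f hf
  rw [mem_S] at hf
  rw [Submodule.mem_bot]
  ext m
  rw [coeff_zero]
  by_contra hm
  have := hf m hm
  omega

theorem one_mem_S : (1 : MvPolynomial (Fin 2) K) ∈ S K 0 := by
  rw [mem_S]
  intro m hm
  rw [coeff_one] at hm
  by_cases h : 0 = m
  · subst h; simp
  · rw [if_neg h] at hm; exact absurd rfl hm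

theorem X_mul_mem_S {w : ℤ} {p : MvPolynomial (Fin 2) K} (h : p ∈ S K w) (i : Fin 2) :
    X i * p ∈ S K (w + 1) := by
  rw [mem_S] at h ⊢
  intro m hm
  rw [coeff_X_mul'] at hm
  split_ifs at hm with hs
  · have e := eq_single_add (Finsupp.mem_support_iff.mp hs)
    have h1 := h _ hm
    have e0 := DFunLike.congr_fun e 0
    have e1 := DFunLike.congr_fun e 1
    rw [Finsupp.add_apply, Finsupp.single_apply] at e0 e1
    fin_cases i <;> simp at e0 e1 h1 ⊢ <;> omega
  · exact absurd rfl hm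

theorem qd_mem_S {w : ℤ} {p : MvPolynomial (Fin 2) K} (h : p ∈ S K w) (i : Fin 2) :
    qd i p ∈ S K (w - 1) := by
  refine S_le_comap (qd i) _ ?_ p h
  intro m hm
  rw [qd_mon]
  by_cases h0 : m i = 0
  · simp [h0, qn_zero]
  · have e := eq_single_add h0
    rw [S, monomial_mem_restrictSupport]
    left
    have e0 := DFunLike.congr_fun e 0
    have e1 := DFunLike.congr_fun e 1
    rw [Finsupp.add_apply, Finsupp.single_apply] at e0 e1
    change (((m - Finsupp.single i 1 : Fin 2 →₀ ℕ) 0 : ℕ) : ℤ) +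
      (((m - Finsupp.single i 1 : Fin 2 →₀ ℕ) 1 : ℕ) : ℤ) = w - 1
    fin_cases i <;> simp at e0 e1 ⊢ <;> omega

theorem qI_mem_S {w : ℤ} {p : MvPolynomial (Fin 2) K} (h : p ∈ S K w) (i : Fin 2) :
    qI i p ∈ S K (w + 1) := by
  refine S_le_comap (qI i) _ ?_ p h
  intro m hm
  rw [qI_mon, S, monomial_mem_restrictSupport]
  left
  change (((Finsupp.single i 1 + m : Fin 2 →₀ ℕ) 0 : ℕ) : ℤ) +
      (((Finsupp.single i 1 + m : Fin 2 →₀ ℕ) 1 : ℕ) : ℤ) = w + 1
  fin_cases i <;> simp <;> omega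

theorem ev_mem {w d : ℤ} {f : D K} (h : f ∈ V K w d) : ev f ∈ S K w := by
  have key : ∀ m : (Fin 2 ⊕ Fin 2) →₀ ℕ, ev (monomial m (1 : K)) ∈ S K (xdeg m - kdeg m) := by
    intro m
    induction m using mon_induction with
    | h0 =>
      have : (monomial 0 1 : D K) = 1 := rfl
      rw [this, ev_one]
      simpa using one_mem_S
    | hk i m _ ih =>
      rw [mon_single_add, ← Rd_apply, ev_Rd]
      exact Submodule.zero_mem _
    | hx i m ih =>
      rw [mon_single_add, ← Lx_apply, ev_Lx]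
      have := X_mul_mem_S ih i
      rw [xdeg_add, kdeg_add, xdeg_inl, kdeg_inl]
      convert this using 2
      ring
  refine V_le_comap ev _ ?_ f h
  intro m h1 h2
  have h3 := key m
  have : w = xdeg m - kdeg m := by omega
  subst this
  exact h3

variable (K) in
/-- the polynomial `p(x)` as an operator -/
noncomputable def ι : MvPolynomial (Fin 2) K →ₗ[K] D K := (rename Sum.inl).toLinearMap

theorem ι_one : ι K 1 = 1 := by simp [ι]
theorem ι_X_mul (i : Fin 2) (p : MvPolynomial (Fin 2) K) : ι K (X i * p) = Lx i (ι K p) := by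
  simp [ι, Lx_apply]

theorem ev_ι (p : MvPolynomial (Fin 2) K) : ev (ι K p) = p := by
  have : (ev.comp (ι K)) = LinearMap.id := by
    have h : ((aeval (Sum.elim (fun i => X i) (fun _ => 0)) : D K →ₐ[K] MvPolynomial (Fin 2) K).comp
      (rename Sum.inl)) = AlgHom.id K _ := by
      ext i
      simp
    exact congrArg AlgHom.toLinearMap h
  exact LinearMap.congr_fun this p

theorem ι_mem {w : ℤ} {p : MvPolynomial (Fin 2) K} (h : p ∈ S K w) : ι K p ∈ V K w 0 := by
  refine S_le_comap (ι K) _ ?_ p h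
  intro m hm
  change rename Sum.inl (monomial m 1) ∈ _
  rw [rename_monomial]
  apply mon_mem_V
  · rw [xdeg, kdeg, Finsupp.mapDomain_apply Sum.inl_injective,
      Finsupp.mapDomain_apply Sum.inl_injective, Finsupp.mapDomain_of_notMem_range,
      Finsupp.mapDomain_of_notMem_range]
    · push_cast; omega
    · simp
    · simp
  · rw [kdeg, Finsupp.mapDomain_of_notMem_range,
      Finsupp.mapDomain_of_notMem_range]
    · simp
    · simp
    · simp

theorem ev_surj {w d : ℤ} (hd : 0 ≤ d) {p : MvPolynomial (Fin 2) K} (h : p ∈ S K w) :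
    ∃ f ∈ V K w d, ev f = p :=
  ⟨ι K p, V_mono hd (ι_mem h), ev_ι p⟩

/-- normal form `f = s(x) + p ∂₀ + q ∂₁` -/
theorem ev_decomp {w d : ℤ} {f : D K} (h : f ∈ V K w d) :
    ∃ p ∈ V K (w + 1) (d - 1), ∃ q ∈ V K (w + 1) (d - 1), f = ι K (ev f) + Rd 0 p + Rd 1 q := by
  have := V_le_comap ((LinearMap.id : D K →ₗ[K] D K) - (ι K) ∘ₗ ev)
    ((V K (w + 1) (d - 1)).map (Rd 0) ⊔ (V K (w + 1) (d - 1)).map (Rd 1))
    (w := w) (d := d) (by
      intro m h1 h2
      have h3 := kdeg_nonneg m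
      by_cases hk : kdeg m = 0
      · have key : ∀ m : (Fin 2 ⊕ Fin 2) →₀ ℕ, kdeg m = 0 →
            ι K (ev (monomial m 1)) = monomial m 1 := by
          intro m
          induction m using mon_induction with
          | h0 =>
            intro _
            have : (monomial 0 1 : D K) = 1 := rfl
            rw [this, ev_one, ι_one]
          | hk i m _ ih =>
            intro hk
            have := kdeg_nonneg m
            rw [kdeg_add, kdeg_inr] at hk
            omega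
          | hx i m ih =>
            intro hk
            rw [kdeg_add, kdeg_inl, zero_add] at hk
            rw [mon_single_add, ← Lx_apply, ev_Lx, ι_X_mul, ih hk]
        rw [LinearMap.sub_apply, LinearMap.comp_apply, key m hk, LinearMap.id_apply, sub_self]
        exact Submodule.zero_mem _
      · obtain ⟨i, hi⟩ := exists_of_kdeg (m := m) (by omega)
        have e := eq_single_add hi
        have e1 := congrArg xdeg e
        have e2 := congrArg kdeg e
        rw [xdeg_add, xdeg_inr] at e1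
        rw [kdeg_add, kdeg_inr] at e2
        have hm : monomial (m - Finsupp.single (Sum.inr i) 1) 1 ∈ V K (w + 1) (d - 1) :=
          mon_mem_V (by omega) (by omega)
        rw [e, LinearMap.sub_apply, LinearMap.comp_apply, LinearMap.id_apply, mon_single_add,
          ← Rd_apply, ev_Rd, map_zero, sub_zero]
        fin_cases i
        · exact Submodule.mem_sup_left (Submodule.mem_map_of_mem hm)
        · exact Submodule.mem_sup_right (Submodule.mem_map_of_mem hm)) f h
  obtain ⟨_, ⟨p, hp, rfl⟩, _, ⟨q, hq, rfl⟩, e⟩ := Submodule.mem_sup.mp this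
  refine ⟨p, hp, q, hq, ?_⟩
  rw [add_assoc, e]
  simp

theorem ev_ker {w d : ℤ} {f : D K} (h : f ∈ V K w d) (h0 : ev f = 0) :
    ∃ p ∈ V K (w + 1) (d - 1), ∃ q ∈ V K (w + 1) (d - 1), f = Rd 0 p + Rd 1 q := by
  obtain ⟨p, hp, q, hq, e⟩ := ev_decomp h
  exact ⟨p, hp, q, hq, by rw [h0, map_zero, zero_add] at e; exact e⟩

variable (K) in
/-- the left analogue of `ev`: kills `∂₀D + ∂₁D`, identity on polynomials in `x`. -/
noncomputable def evL : D K →ₗ[K] MvPolynomial (Fin 2) K := ev ∘ₗ (E' K)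

theorem evL_apply (f : D K) : evL K f = ev (E' K f) := rfl

theorem evL_Ld (i : Fin 2) (f : D K) : evL K (Ld i f) = 0 := by
  rw [evL_apply, E'_Ld, ev_Rd]

theorem evL_Rx (i : Fin 2) (f : D K) : evL K (Rx i f) = X i * evL K f := by
  rw [evL_apply, E'_Rx, ev_Lx, evL_apply]

theorem evL_one : evL K 1 = 1 := by rw [evL_apply, E'_one, ev_one]

theorem evL_mem {w d : ℤ} {f : D K} (h : f ∈ V K w d) : evL K f ∈ S K w :=
  ev_mem (E'_mem h)

theorem qd_inr_ι (i : Fin 2) (p : MvPolynomial (Fin 2) K) : qd (Sum.inr i) (ι K p) = 0 := by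
  induction p using MvPolynomial.induction_on with
  | C a =>
    have : (C a : MvPolynomial (Fin 2) K) = a • 1 := by rw [smul_eq_C_mul, mul_one]
    rw [this, map_smul, map_smul, ι_one, qd_one, smul_zero]
  | add p q hp hq => rw [map_add, map_add, hp, hq, add_zero]
  | mul_X p j hp =>
    rw [mul_comm, ι_X_mul, Lx_apply, qd_ne (by simp), hp, mul_zero]

theorem E_ι (p : MvPolynomial (Fin 2) K) : E K (ι K p) = ι K p := by
  induction p using MvPolynomial.induction_on with
  | C a =>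
    have : (C a : MvPolynomial (Fin 2) K) = a • 1 := by rw [smul_eq_C_mul, mul_one]
    rw [this, map_smul, map_smul, ι_one, E_one]
  | add p q hp hq => rw [map_add, map_add, hp, hq]
  | mul_X p i hp =>
    rw [mul_comm, ι_X_mul, E_Lx, hp, Rx_apply, qd_inr_ι, mul_zero, add_zero, Lx_apply]

theorem E'_ι (p : MvPolynomial (Fin 2) K) : E' K (ι K p) = ι K p := by
  apply E_inj
  rw [E_E', E_ι]

/-- normal form `f = s(x) + ∂₀ p + ∂₁ q` -/
theorem evL_decomp {w d : ℤ} {f : D K} (h : f ∈ V K w d) :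
    ∃ p ∈ V K (w + 1) (d - 1), ∃ q ∈ V K (w + 1) (d - 1),
      f = ι K (evL K f) + Ld 0 p + Ld 1 q := by
  obtain ⟨p, hp, q, hq, e⟩ := ev_decomp (E'_mem h)
  refine ⟨E K p, E_mem hp, E K q, E_mem hq, ?_⟩
  have := congrArg (E K) e
  rw [E_E'] at this
  rw [← E_Rd, ← E_Rd, evL_apply]
  conv_lhs => rw [this]
  rw [map_add, map_add, E_ι]

theorem evL_ker {w d : ℤ} {f : D K} (h : f ∈ V K w d) (h0 : evL K f = 0) :
    ∃ p ∈ V K (w + 1) (d - 1), ∃ q ∈ V K (w + 1) (d - 1), f = Ld 0 p + Ld 1 q := by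
  obtain ⟨p, hp, q, hq, e⟩ := evL_decomp h
  exact ⟨p, hp, q, hq, by rw [h0, map_zero, zero_add] at e; exact e⟩

/-- left analogue: kills `∂₀D + ∂₁D`, identity on polynomials in `x`. -/
theorem exists_evL : ∃ evL : D K →ₗ[K] MvPolynomial (Fin 2) K,
    (∀ i f, evL (Ld i f) = 0) ∧ (∀ i f, evL (Rx i f) = X i * evL f) ∧ evL 1 = 1 ∧
    (∀ w d f, f ∈ V K w d → evL f ∈ S K w) ∧
    (∀ w d f, f ∈ V K w d → evL f = 0 →
      ∃ p ∈ V K (w + 1) (d - 1), ∃ q ∈ V K (w + 1) (d - 1), f = Ld 0 p + Ld 1 q) :=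
  ⟨evL K, evL_Ld, evL_Rx, evL_one, fun _ _ _ h => evL_mem h, fun _ _ _ h h0 => evL_ker h h0⟩

theorem Ld_surj {w d : ℤ} (hw : w < 0) {f : D K} (h : f ∈ V K w d) :
    ∃ p ∈ V K (w + 1) (d - 1), ∃ q ∈ V K (w + 1) (d - 1), f = Ld 0 p + Ld 1 q := by
  apply evL_ker h
  have := evL_mem h
  rw [S_neg hw, Submodule.mem_bot] at this
  exact this

/-! ### Universal property of `D` as a left module -/

section Univ

variable {Y : Type u} [AddCommGroup Y] [Module K Y]

/-- the Weyl relations for operators on `Y` -/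
structure IsWeylOps (x d : Fin 2 → Module.End K Y) : Prop where
  xx : ∀ i j y, x i (x j y) = x j (x i y)
  dd : ∀ i j y, d i (d j y) = d j (d i y)
  dx : ∀ i j y, d i (x j y) = (qc i j : K) • x j (d i y) + (if i = j then y else 0)

theorem mk_Ld {x d : Fin 2 → Module.End K Y} (h : IsWeylOps x d) (z : Y) (i : Fin 2) (f : D K) :
    mk (Sum.elim x d) z (Ld i f) = d i (mk (Sum.elim x d) z f) := by
  have hx : ∀ i f, mk (Sum.elim x d) z (Lx i f) = x i (mk (Sum.elim x d) z f) := by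
    intro i f
    exact mk_inl (Sum.elim x d) z (LinearMap.ext fun y => h.xx 0 1 y) i f
  have hd0 : ∀ i (m : (Fin 2 ⊕ Fin 2) →₀ ℕ), xdeg m = 0 →
      mk (Sum.elim x d) z (Ld i (monomial m 1)) = d i (mk (Sum.elim x d) z (monomial m 1)) := by
    intro i m hm
    have hc : Commute (d 0) (d 1) := LinearMap.ext fun y => h.dd 0 1 y
    rw [Ld_mon_of_xdeg hm, mk_monomial, mk_monomial]
    have h0 : m (Sum.inl 0) = 0 := by unfold xdeg at hm; omega
    have h1 : m (Sum.inl 1) = 0 := by unfold xdeg at hm; omega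
    have e0 : (Finsupp.single (Sum.inr i) 1 + m : (Fin 2 ⊕ Fin 2) →₀ ℕ) (Sum.inl 0) =
      m (Sum.inl 0) := by simp
    have e1 : (Finsupp.single (Sum.inr i) 1 + m : (Fin 2 ⊕ Fin 2) →₀ ℕ) (Sum.inl 1) =
      m (Sum.inl 1) := by simp
    rw [e0, e1, h0, h1, pow_zero, pow_zero, one_mul, one_mul, one_mul, ← Module.End.mul_apply]
    congr 1
    fin_cases i
    · simp [pow_add, mul_assoc]
    · simp only [Finsupp.add_apply, Finsupp.single_apply, Fin.mk_one, Sum.elim_inr]
      simp only [Sum.inr.injEq, if_false, if_true, zero_add, one_ne_zero,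
        pow_add, pow_one]
      rw [← mul_assoc, ← mul_assoc, ((hc.pow_left _).eq)]
      simp only [mul_one, mul_assoc]
  have : (mk (Sum.elim x d) z) ∘ₗ (Ld i) = (d i) ∘ₗ (mk (Sum.elim x d) z) := by
    apply ext_mon
    intro m
    induction m using mon_induction with
    | h0 => exact hd0 i 0 (by simp)
    | hk j m hm ih => exact hd0 i _ (by simp [hm])
    | hx j m ih =>
      simp only [LinearMap.comp_apply] at ih ⊢
      rw [mon_single_add, ← Lx_apply, Ld_Lx, map_add, map_smul, hx, hx, ih, h.dx]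
      congr 1
      split_ifs <;> simp
  exact LinearMap.congr_fun this f

theorem univ_exists {x d : Fin 2 → Module.End K Y} (h : IsWeylOps x d) (z : Y) :
    ∃ φ : D K →ₗ[K] Y, φ 1 = z ∧ (∀ i f, φ (Lx i f) = x i (φ f)) ∧
      (∀ i f, φ (Ld i f) = d i (φ f)) ∧
      ∀ (F : ℤ → ℤ → Submodule K Y), (∀ w e i y, y ∈ F w e → x i y ∈ F (w + 1) e) →
        (∀ w e i y, y ∈ F w e → d i y ∈ F (w - 1) (e + 1)) → (∀ w e, F w e ≤ F w (e + 1)) →
        ∀ w' e', z ∈ F w' e' → ∀ w e f, f ∈ V K w e → φ f ∈ F (w' + w) (e' + e) := by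
  have hx : ∀ i f, mk (Sum.elim x d) z (Lx i f) = x i (mk (Sum.elim x d) z f) := by
    intro i f
    exact mk_inl (Sum.elim x d) z (LinearMap.ext fun y => h.xx 0 1 y) i f
  refine ⟨mk (Sum.elim x d) z, mk_one _ _, hx, mk_Ld h z, ?_⟩
  intro F hFx hFd hF w' e' hz w e f hf
  have hmono : ∀ w e e2, e ≤ e2 → F w e ≤ F w e2 := by
    intro w e e2 he
    induction e2, he using Int.leInduction with
    | base => exact le_refl _
    | succ n hn ih => exact ih.trans (hF w n)
  have key : ∀ m : (Fin 2 ⊕ Fin 2) →₀ ℕ,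
      mk (Sum.elim x d) z (monomial m 1) ∈ F (w' + (xdeg m - kdeg m)) (e' + kdeg m) := by
    intro m
    induction m using mon_induction with
    | h0 =>
      have : (monomial 0 1 : D K) = 1 := rfl
      rw [this, mk_one]
      simpa using hz
    | hk i m hm ih =>
      rw [← Ld_mon_of_xdeg hm, mk_Ld h]
      have := hFd _ _ i _ ih
      rw [xdeg_add, kdeg_add, xdeg_inr, kdeg_inr]
      convert this using 2 <;> ring
    | hx i m ih =>
      rw [mon_single_add, ← Lx_apply, hx]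
      have := hFx _ _ i _ ih
      rw [xdeg_add, kdeg_add, xdeg_inl, kdeg_inl]
      convert this using 2 <;> ring
  refine V_le_comap (mk (Sum.elim x d) z) _ ?_ f hf
  intro m h1 h2
  have h3 := key m
  have : w = xdeg m - kdeg m := by omega
  subst this
  exact hmono _ _ _ (by omega) h3

theorem univ_ext {φ ψ : D K →ₗ[K] Y} {x d : Fin 2 → Module.End K Y}
    (h1 : φ 1 = ψ 1) (hx : ∀ i f, φ (Lx i f) = x i (φ f)) (hx' : ∀ i f, ψ (Lx i f) = x i (ψ f))
    (hd : ∀ i f, φ (Ld i f) = d i (φ f)) (hd' : ∀ i f, ψ (Ld i f) = d i (ψ f)) : φ = ψ := by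
  apply ext_mon
  intro m
  induction m using mon_induction with
  | h0 => exact h1
  | hk i m hm ih => rw [← Ld_mon_of_xdeg hm, hd, hd', ih]
  | hx i m ih => rw [mon_single_add, ← Lx_apply, hx, hx', ih]

end Univ

end Vale.Agent.P195Q.Weyl
end
end
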