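import Vale.Agent.P195.MathlibUsed
import Vale.Agent.P195.H231.Q.Wl

set_option linter.all false

section

section

/-!
# P195: window facts for the objects `O(a,b)`, `G_b`, `C_n`

Everything is stated for a space `Y` with operators `x d : Fin 2 → End Y` and subspaces
`F w d` (weight `w`, order `d`).
-/

namespace Vale.Agent.P195Q.Weyl

open MvPolynomial

universe u

variable {K : Type u} [Field K] [QPar K]

theorem cV {w w' d d' : ℤ} {f : D K} (h : f ∈ V K w d) (hw : w = w')
    (hd : d = d') : f ∈ V K w' d' := by subst hw; subst hd; exact h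

/-! ### the object `G_b` -/

/-- `μ(h) = h₀ x₀ + h₁ x₁` (right multiplication). -/
noncomputable def mu : (D K × D K) →ₗ[K] D K := (Rx 0).coprod (Rx 1)

@[simp] theorem mu_apply (h : D K × D K) : mu h = Rx 0 h.1 + Rx 1 h.2 := rfl

/-- `g ↦ (g x₁, - g x₀)`. -/
noncomputable def jj : D K →ₗ[K] (D K × D K) := (Rx 1).prod (-(Rx 0))

@[simp] theorem jj_apply (g : D K) : jj g = (Rx 1 g, - Rx 0 g) := rfl

theorem mu_jj (g : D K) : mu (jj g) = 0 := by
  simp [Rx_comm 0 1]

/-- componentwise left multiplication by `x_i` -/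
noncomputable def Lx2 (i : Fin 2) : Module.End K (D K × D K) := (Lx i).prodMap (Lx i)
/-- componentwise left multiplication by `∂_i` -/
noncomputable def Ld2 (i : Fin 2) : Module.End K (D K × D K) := (Ld i).prodMap (Ld i)

@[simp] theorem Lx2_apply (i : Fin 2) (h : D K × D K) : Lx2 i h = (Lx i h.1, Lx i h.2) := rfl
@[simp] theorem Ld2_apply (i : Fin 2) (h : D K × D K) : Ld2 i h = (Ld i h.1, Ld i h.2) := rfl

theorem mu_Lx2 (i : Fin 2) (h : D K × D K) : mu (Lx2 i h) = Lx i (mu h) := by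
  simp [Lx_Rx]

theorem mu_Ld2 (i : Fin 2) (h : D K × D K) : mu (Ld2 i h) = Ld i (mu h) := by
  simp [Ld_Rx]

theorem jj_Lx (i : Fin 2) (g : D K) : jj (Lx i g) = Lx2 i (jj g) := by
  simp [Lx_Rx]

theorem jj_Ld (i : Fin 2) (g : D K) : jj (Ld i g) = Ld2 i (jj g) := by
  simp [Ld_Rx]

variable (K) in
/-- The windows of `G_b`: `(G_b)_w^d = {h ∈ V(w,d+2)² : μ(h) ∈ V(w+1,b+d)}`. -/
noncomputable def GG (b w d : ℤ) : Submodule K (D K × D K) :=
  (V K w (d + 2)).prod (V K w (d + 2)) ⊓ (V K (w + 1) (b + d)).comap mu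

theorem mem_GG {b w d : ℤ} {h : D K × D K} :
    h ∈ GG K b w d ↔ (h.1 ∈ V K w (d + 2) ∧ h.2 ∈ V K w (d + 2)) ∧
      mu h ∈ V K (w + 1) (b + d) := Iff.rfl

theorem GG_mono {b w d d' : ℤ} (h : d ≤ d') : GG K b w d ≤ GG K b w d' := by
  intro p hp
  rw [mem_GG] at hp ⊢
  exact ⟨⟨V_mono (by omega) hp.1.1, V_mono (by omega) hp.1.2⟩, V_mono (by omega) hp.2⟩

theorem Lx2_mem {b w d : ℤ} {h : D K × D K} (hh : h ∈ GG K b w d) (i : Fin 2) :
    Lx2 i h ∈ GG K b (w + 1) d := by
  rw [mem_GG] at hh ⊢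
  refine ⟨⟨Lx_mem hh.1.1 i, Lx_mem hh.1.2 i⟩, ?_⟩
  rw [mu_Lx2]; exact Lx_mem hh.2 i

theorem Ld2_mem {b w d : ℤ} {h : D K × D K} (hh : h ∈ GG K b w d) (i : Fin 2) :
    Ld2 i h ∈ GG K b (w - 1) (d + 1) := by
  rw [mem_GG] at hh ⊢
  refine ⟨⟨?_, ?_⟩, ?_⟩
  · have := Ld_mem hh.1.1 i
    simp only [Ld2_apply]
    convert this using 2; ring
  · have := Ld_mem hh.1.2 i
    simp only [Ld2_apply]
    convert this using 2; ring
  · rw [mu_Ld2]
    have := Ld_mem hh.2 i
    convert this using 2 <;> ring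

/-- `T_6 → G_b` on windows -/
theorem jj_mem {b w d : ℤ} {g : D K} (hg : g ∈ V K (w - 1) (d + 2)) : jj g ∈ GG K b w d := by
  rw [mem_GG, mu_jj]
  refine ⟨⟨?_, ?_⟩, Submodule.zero_mem _⟩
  · have := Rx_mem hg 1
    simpa using this
  · have := Rx_mem hg 0
    simpa using this

theorem jj_injective : Function.Injective (jj : D K →ₗ[K] D K × D K) := by
  intro a b h
  have := congrArg Prod.fst h
  exact Rx_inj 1 this

/-- exactness of `T_6 → G_b → O(1,b)` in the middle -/
theorem exists_jj {w d : ℤ} {h : D K × D K} (h2 : h.2 ∈ V K w d) (h0 : mu h = 0) :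
    ∃ g ∈ V K (w - 1) d, h = jj g := by
  obtain ⟨z, hz, hz1, hz2⟩ := Rx_kos (w := w - 1) (d := d) (p := -h.2) (q := h.1) (by
      simpa using h2) (by
      rw [map_neg, mu_apply] at *
      rw [neg_eq_iff_add_eq_zero, add_comm]; exact h0)
  refine ⟨z, hz, ?_⟩
  ext1
  · exact hz2
  · rw [jj_apply]
    simp only
    rw [← hz1, neg_neg]

/-- surjectivity of `G_b → O(1,b)` on windows of weight `≥ 0`, with a lift in small order -/
theorem mu_surj {w e : ℤ} (hw : 0 ≤ w) {r : D K} (hr : r ∈ V K (w + 1) e) :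
    ∃ p ∈ V K w e, ∃ q ∈ V K w e, mu (p, q) = r := by
  obtain ⟨p, hp, q, hq, h⟩ := Rx_surj hw hr
  exact ⟨p, hp, q, hq, h.symm⟩

theorem pair_mem_GG {b w d : ℤ} (hb : b ≤ 2) {p q : D K} (hp : p ∈ V K w (b + d))
    (hq : q ∈ V K w (b + d)) : (p, q) ∈ GG K b w d := by
  rw [mem_GG]
  refine ⟨⟨V_mono (by omega) hp, V_mono (by omega) hq⟩, ?_⟩
  exact Submodule.add_mem _ (Rx_mem hp 0) (Rx_mem hq 1)

theorem GG_surj {b w d : ℤ} (hb : b ≤ 2) (hw : 0 ≤ w) {r : D K} (hr : r ∈ V K (w + 1) (b + d)) :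
    ∃ h ∈ GG K b w d, mu h = r := by
  obtain ⟨p, hp, q, hq, h⟩ := mu_surj hw hr
  exact ⟨(p, q), pair_mem_GG hb hp hq, h⟩

/-! ### F2, F3, F4 -/

theorem GG_F2 {b w d : ℤ} {p q : D K × D K} (hp : p ∈ GG K b (w + 1) d)
    (h : Lx2 1 p = Lx2 0 q) : ∃ z ∈ GG K b w d, p = Lx2 0 z ∧ q = Lx2 1 z := by
  rw [mem_GG] at hp
  have ha := congrArg Prod.fst h
  have hb := congrArg Prod.snd h
  simp only [Lx2_apply] at ha hb
  obtain ⟨z1, hz1, e1, e1'⟩ := Lx_kos hp.1.1 ha
  obtain ⟨z2, hz2, e2, e2'⟩ := Lx_kos hp.1.2 hb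
  refine ⟨(z1, z2), ?_, ?_, ?_⟩
  · rw [mem_GG]
    refine ⟨⟨hz1, hz2⟩, ?_⟩
    have : p = Lx2 0 (z1, z2) := Prod.ext e1 e2
    rw [this, mu_Lx2] at hp
    exact (Lx_mem_iff 0).1 hp.2
  · exact Prod.ext e1 e2
  · exact Prod.ext e1' e2'

theorem GG_F3 {b w : ℤ} (hb : b ≤ 1) (hw : 1 ≤ w) {f : D K × D K}
    (hf : f ∈ GG K b (w + 1) (-2)) :
    ∃ p ∈ GG K b w (-2), ∃ q ∈ GG K b w (-2), f = Lx2 0 p + Lx2 1 q := by
  rw [mem_GG] at hf
  have h0 : mu f = 0 := by
    have := hf.2
    rw [V_eq_bot (by omega)] at this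
    simpa using this
  obtain ⟨g, hg, rfl⟩ := exists_jj hf.1.2 h0
  obtain ⟨p, hp, q, hq, rfl⟩ := Lx_surj (w := w - 1) (d := -2 + 2) (by omega) (by
    simpa using hg)
  refine ⟨jj p, jj_mem hp, jj q, jj_mem hq, ?_⟩
  rw [map_add, jj_Lx, jj_Lx]

theorem GG_F4 {b d : ℤ} (hb : b ≤ 2) {f : D K × D K} (hf : f ∈ GG K b 1 d) :
    ∃ c ∈ GG K b 1 (-2), ∃ p ∈ GG K b 0 d, ∃ q ∈ GG K b 0 d, f = c + Lx2 0 p + Lx2 1 q := by
  have hf' := hf
  rw [mem_GG] at hf'
  obtain ⟨u0, hu0, u1, hu1, hu⟩ := Lx_surj (w := 1) (d := b + d) (by omega) (by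
    simpa using hf'.2)
  obtain ⟨k0, hk0, e0⟩ := GG_surj (b := b) (w := 0) (d := d) hb le_rfl (by simpa using hu0)
  obtain ⟨k1, hk1, e1⟩ := GG_surj (b := b) (w := 0) (d := d) hb le_rfl (by simpa using hu1)
  have hrem : f - (Lx2 0 k0 + Lx2 1 k1) ∈ GG K b 1 d := by
    refine Submodule.sub_mem _ hf (Submodule.add_mem _ ?_ ?_)
    · simpa using Lx2_mem hk0 0
    · simpa using Lx2_mem hk1 1
  rw [mem_GG] at hrem
  obtain ⟨g, hg, hgj⟩ := exists_jj (w := 1) (d := d + 2) (h := f - (Lx2 0 k0 + Lx2 1 k1))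
    hrem.1.2 (by rw [map_sub, map_add, mu_Lx2, mu_Lx2, e0, e1, ← hu, mu_apply, sub_self])
  obtain ⟨c, g0, hg0, g1, hg1, hgg⟩ := Lx_surj0 (d := d + 2) (by simpa using hg)
  refine ⟨jj (c • 1), ?_, k0 + jj g0, Submodule.add_mem _ hk0 (jj_mem (by simpa using hg0)),
    k1 + jj g1, Submodule.add_mem _ hk1 (jj_mem (by simpa using hg1)), ?_⟩
  · refine jj_mem ?_
    simpa using Submodule.smul_mem _ c one_mem_V
  · rw [map_add, map_add, ← jj_Lx, ← jj_Lx]
    rw [hgg, map_add, map_add] at hgj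
    rw [sub_eq_iff_eq_add] at hgj
    rw [hgj]; abel

/-- F4 for `T_6 = O(-1,2)` : `V(0,e) = V(0,0) + x V(-1,e)`. -/
theorem T6_F4 {e : ℤ} {f : D K} (hf : f ∈ V K 0 e) :
    ∃ c ∈ V K 0 0, ∃ p ∈ V K (-1) e, ∃ q ∈ V K (-1) e, f = c + Lx 0 p + Lx 1 q := by
  obtain ⟨c, p, hp, q, hq, h⟩ := Lx_surj0 hf
  exact ⟨c • 1, by simpa using Submodule.smul_mem _ c one_mem_V, p, hp, q, hq, h⟩

/-! ### the complexes `κ(F)` -/

section Kap

variable {Y : Type*} [AddCommGroup Y] [Module K Y]

/-- Exactness of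
`0 → F(1,-2) → F(0,-1)² → {p ∈ F(0,0)² : x₁p₀ - x₀p₁ ∈ F(1,-2)} → F(1,-2) → 0`,
`f ↦ (∂₀f, ∂₁f)`, `g ↦ (x₀u, x₁u)` with `u = ∂₁g₀ - ∂₀g₁`, `p ↦ x₁p₀ - x₀p₁`. -/
structure Kap (x d : Fin 2 → Module.End K Y) (F : ℤ → ℤ → Submodule K Y) : Prop where
  k0 : ∀ f ∈ F 1 (-2), d 0 f = 0 → d 1 f = 0 → f = 0
  k1 : ∀ g₀ ∈ F 0 (-1), ∀ g₁ ∈ F 0 (-1), x 0 (d 1 g₀ - d 0 g₁) = 0 →
    x 1 (d 1 g₀ - d 0 g₁) = 0 → ∃ f ∈ F 1 (-2), g₀ = d 0 f ∧ g₁ = d 1 f
  k2 : ∀ p₀ ∈ F 0 0, ∀ p₁ ∈ F 0 0, x 1 p₀ = x 0 p₁ → ∃ g₀ ∈ F 0 (-1), ∃ g₁ ∈ F 0 (-1),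
    p₀ = x 0 (d 1 g₀ - d 0 g₁) ∧ p₁ = x 1 (d 1 g₀ - d 0 g₁)
  k3 : ∀ f ∈ F 1 (-2), ∃ p₀ ∈ F 0 0, ∃ p₁ ∈ F 0 0, x 1 p₀ - x 0 p₁ = f

end Kap

theorem kap_O (b : ℤ) : Kap (K := K) Lx Ld (fun w e => V K w (b + e)) where
  k0 := fun f _ h _ => Ld_inj 0 (by rw [h, map_zero])
  k1 := by
    intro g₀ h₀ g₁ h₁ e0 _
    have e : Ld 1 g₀ - Ld 0 g₁ = 0 := Lx_inj 0 (by rw [e0, map_zero])
    obtain ⟨z, hz, a, b'⟩ := Ld_kos (w := 1) (d := b + (-2)) (p := g₀) (q := g₁) (cV h₀ (by ring) (by ring))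
      (sub_eq_zero.1 e)
    exact ⟨z, hz, a, b'⟩
  k2 := by
    intro p₀ h₀ p₁ h₁ e
    obtain ⟨u, hu, a, b'⟩ := Lx_kos (w := -1) (d := b) (p := p₀) (q := p₁) (cV h₀ (by ring) (by ring)) e
    obtain ⟨p, hp, q, hq, rfl⟩ := Ld_surj (w := -1) (d := b) (by norm_num) hu
    refine ⟨q, cV hq (by ring) (by ring), -p, Submodule.neg_mem _ (cV hp (by ring) (by ring)), ?_, ?_⟩
    · rw [a, map_neg, sub_neg_eq_add, add_comm]
    · rw [b', map_neg, sub_neg_eq_add, add_comm]
  k3 := by
    intro f hf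
    obtain ⟨p, hp, q, hq, rfl⟩ := Lx_surj (w := 0) (d := b + (-2)) le_rfl (cV hf (by ring) (by ring))
    refine ⟨q, V_mono (by omega) hq, -p, Submodule.neg_mem _ (V_mono (by omega) hp), ?_⟩
    rw [map_neg, sub_neg_eq_add, add_comm]

theorem kap_GG {b : ℤ} (hb0 : 0 ≤ b) (hb1 : b ≤ 1) :
    Kap (K := K) Lx2 Ld2 (fun w e => GG K b w e) where
  k0 := by
    intro f _ h _
    have h1 := congrArg Prod.fst h
    have h2 := congrArg Prod.snd h
    simp only [Ld2_apply, Prod.fst_zero, Prod.snd_zero] at h1 h2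
    exact Prod.ext (Ld_inj 0 (by rw [h1]; simp)) (Ld_inj 0 (by rw [h2]; simp))
  k1 := by
    intro g₀ h₀ g₁ h₁ e0 _
    rw [mem_GG] at h₀ h₁
    have ea : Ld 1 g₀.1 - Ld 0 g₁.1 = 0 := Lx_inj 0 (by
      have := congrArg Prod.fst e0
      simpa using this)
    have eb : Ld 1 g₀.2 - Ld 0 g₁.2 = 0 := Lx_inj 0 (by
      have := congrArg Prod.snd e0
      simpa using this)
    obtain ⟨f1, hf1, a1, b1⟩ := Ld_kos (w := 1) (d := 0) (p := g₀.1) (q := g₁.1)
      (cV h₀.1.1 (by ring) (by ring)) (sub_eq_zero.1 ea)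
    obtain ⟨f2, hf2, a2, b2⟩ := Ld_kos (w := 1) (d := 0) (p := g₀.2) (q := g₁.2)
      (cV h₀.1.2 (by ring) (by ring)) (sub_eq_zero.1 eb)
    refine ⟨(f1, f2), ?_, Prod.ext a1 a2, Prod.ext b1 b2⟩
    rw [mem_GG]
    refine ⟨⟨cV hf1 (by ring) (by ring), cV hf2 (by ring) (by ring)⟩, ?_⟩
    have hg : g₀ = Ld2 0 (f1, f2) := Prod.ext a1 a2
    rw [hg, mu_Ld2] at h₀
    exact (Ld_mem_iff 0).1 (cV h₀.2 (by ring) (by ring))
  k2 := by
    intro p₀ h₀ p₁ h₁ e
    obtain ⟨u, hu, a, a'⟩ := GG_F2 (w := -1) (by simpa using h₀) e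
    rw [mem_GG] at hu
    have hmu : mu u ∈ V K 0 b := cV hu.2 (by ring) (by ring)
    obtain ⟨q1, hq1, r1, hr1, e1⟩ := Ld_surj (w := -1) (by norm_num) hu.1.1
    obtain ⟨q2, hq2, r2, hr2, e2⟩ := Ld_surj (w := -1) (by norm_num) hu.1.2
    have eu : u = Ld2 0 (q1, q2) + Ld2 1 (r1, r2) := Prod.ext e1 e2
    obtain ⟨evL, v1, -, -, -, v5⟩ := exists_evL (K := K)
    obtain ⟨s, hs, t, ht, est⟩ := v5 0 b (mu u) hmu (by
      rw [eu, map_add, mu_Ld2, mu_Ld2, map_add, v1, v1, add_zero])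
    have h3 : mu u = Ld 0 (mu (q1, q2)) + Ld 1 (mu (r1, r2)) := by
      rw [eu, map_add, mu_Ld2, mu_Ld2]
    obtain ⟨z, hz, ez, ez'⟩ := Ld_kos (w := 2) (d := 0) (p := mu (r1, r2) - t)
      (q := s - mu (q1, q2)) (by
        refine Submodule.sub_mem _ ?_ (V_mono (by omega) (cV (d' := b - 1) ht (by ring) (by ring)))
        exact Submodule.add_mem _ (cV (Rx_mem hr1 0) (by ring) (by ring)) (cV (Rx_mem hr2 1) (by ring) (by ring))) (by
        rw [map_sub, map_sub, sub_eq_sub_iff_add_eq_add, add_comm, ← h3, est, add_comm])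
    obtain ⟨f0, hf0, f1, hf1, ef⟩ := mu_surj (w := 1) (e := 0) (by norm_num) (cV hz (by ring) (by ring))
    have hr' : mu ((r1, r2) - Ld2 0 (f0, f1)) = t := by
      rw [map_sub, mu_Ld2, ef, ← ez]; abel
    have hq' : mu ((q1, q2) + Ld2 1 (f0, f1)) = s := by
      rw [map_add, mu_Ld2, ef, ← ez']; abel
    have hu' : u = Ld2 1 ((r1, r2) - Ld2 0 (f0, f1)) - Ld2 0 (-((q1, q2) + Ld2 1 (f0, f1))) := by
      rw [eu]
      have hc : Ld2 1 (Ld2 0 (f0, f1)) = Ld2 0 (Ld2 1 (f0, f1)) := by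
        simp [Ld_comm 1 0]
      rw [map_sub, map_neg, map_add, hc]; abel
    refine ⟨(r1, r2) - Ld2 0 (f0, f1), ?_, -((q1, q2) + Ld2 1 (f0, f1)), ?_, ?_, ?_⟩
    · rw [mem_GG, hr']
      refine ⟨⟨?_, ?_⟩, cV ht (by ring) (by ring)⟩
      · exact Submodule.sub_mem _ (cV hr1 (by ring) (by ring)) (cV (Ld_mem hf0 0) (by ring) (by ring))
      · exact Submodule.sub_mem _ (cV hr2 (by ring) (by ring)) (cV (Ld_mem hf1 0) (by ring) (by ring))
    · refine Submodule.neg_mem _ ?_
      rw [mem_GG, hq']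
      refine ⟨⟨?_, ?_⟩, cV hs (by ring) (by ring)⟩
      · exact Submodule.add_mem _ (cV hq1 (by ring) (by ring)) (cV (Ld_mem hf0 1) (by ring) (by ring))
      · exact Submodule.add_mem _ (cV hq2 (by ring) (by ring)) (cV (Ld_mem hf1 1) (by ring) (by ring))
    · rw [← hu']; exact a
    · rw [← hu']; exact a'
  k3 := by
    intro f hf
    rw [mem_GG] at hf
    have h0 : mu f = 0 := by
      have := hf.2
      rw [V_eq_bot (by omega)] at this
      simpa using this
    obtain ⟨g, hg, rfl⟩ := exists_jj hf.1.2 h0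
    obtain ⟨c, rfl⟩ := V_zero_zero (cV hg (by ring) (by ring))
    have h1 : (c • 1 : D K) ∈ V K 0 0 := Submodule.smul_mem _ c one_mem_V
    have h1' : (c • 1 : D K) ∈ V K 0 (b + 0) := V_mono (by omega) h1
    refine ⟨(c • 1, 0), ?_, (0, c • 1), ?_, ?_⟩
    · exact pair_mem_GG (by omega) h1' (Submodule.zero_mem _)
    · exact pair_mem_GG (by omega) (Submodule.zero_mem _) h1'
    · simp

end Vale.Agent.P195Q.Weyl
end
end

section

section

/-!
# P195: window facts for `C_n = K[x₀,x₁]`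
-/

namespace Vale.Agent.P195Q.Weyl

open MvPolynomial

universe u

variable {K : Type u} [Field K] [QPar K]

theorem coeff_qd (i : Fin 2) (m : Fin 2 →₀ ℕ) (f : MvPolynomial (Fin 2) K) :
    coeff m (qd i f) = qn (m i + 1) * coeff (Finsupp.single i 1 + m) f := by
  classical
  have : (lcoeff K m) ∘ₗ (qd i) = (qn (m i + 1) : K) • (lcoeff K (Finsupp.single i 1 + m)) := by
    apply ext_mon'
    intro n
    simp only [LinearMap.comp_apply, LinearMap.smul_apply, lcoeff_apply, qd_mon, smul_eq_mul]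
    rw [coeff_monomial, coeff_monomial]
    by_cases h0 : n i = 0
    · rw [h0, qn_zero]
      have : n ≠ Finsupp.single i 1 + m := by
        intro h
        have h2 := DFunLike.congr_fun h i
        rw [h0, Finsupp.add_apply, Finsupp.single_apply, if_pos rfl] at h2
        omega
      rw [if_neg this, mul_zero, ite_self]
    · have e := eq_single_add h0
      by_cases h : n - Finsupp.single i 1 = m
      · rw [if_pos h, if_pos (by rw [← h]; exact e), mul_one]
        congr 1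
        have h2 := DFunLike.congr_fun e i
        rw [h, Finsupp.add_apply, Finsupp.single_apply, if_pos rfl] at h2
        omega
      · rw [if_neg h, if_neg, mul_zero]
        intro h3
        apply h
        rw [h3]
        exact add_tsub_cancel_left _ _
  exact LinearMap.congr_fun this f

/-- Koszul for multiplication by `x₀, x₁` on `K[x₀,x₁]`. -/
theorem S_kos {w : ℤ} {p q : MvPolynomial (Fin 2) K} (hp : p ∈ S K (w + 1))
    (h : X 1 * p = X 0 * q) : ∃ z ∈ S K w, p = X 0 * z ∧ q = X 1 * z := by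
  have hd : (X 0 : MvPolynomial (Fin 2) K) ∣ X 1 * p := ⟨q, h⟩
  rcases X_dvd_mul_iff.1 hd with h1 | h1
  · exact absurd (X_dvd_X.1 h1) (by decide)
  · obtain ⟨z, rfl⟩ := h1
    refine ⟨z, ?_, rfl, ?_⟩
    · rw [mem_S] at hp ⊢
      intro m hm
      have := hp (Finsupp.single 0 1 + m) (by rwa [coeff_X_mul])
      simp at this
      omega
    · have h2 : (X 0 : MvPolynomial (Fin 2) K) * (X 1 * z) = X 0 * q := by rw [← h]; ring
      exact (mul_left_cancel₀ (X_ne_zero 0) h2).symm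

theorem S_surj {w : ℤ} (hw : 0 ≤ w) {f : MvPolynomial (Fin 2) K} (h : f ∈ S K (w + 1)) :
    ∃ p ∈ S K w, ∃ q ∈ S K w, f = X 0 * p + X 1 * q := by
  classical
  rw [mem_S] at h
  set r := f.modMonomial (Finsupp.single 0 1) with hr
  have h1 : X 0 * (f.divMonomial (Finsupp.single 0 1)) + r = f :=
    divMonomial_add_modMonomial_single f 0
  have h2 : X 1 * (r.divMonomial (Finsupp.single 1 1)) + r.modMonomial (Finsupp.single 1 1) = r :=
    divMonomial_add_modMonomial_single r 1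
  have hrc : ∀ m, coeff m r ≠ 0 → m 0 = 0 ∧ coeff m f ≠ 0 := by
    intro m hm
    by_cases hle : Finsupp.single 0 1 ≤ m
    · exact absurd (coeff_modMonomial_of_le f hle) hm
    · rw [hr, coeff_modMonomial_of_not_le f hle] at hm
      refine ⟨?_, hm⟩
      rw [Finsupp.single_le_iff] at hle; omega
  have h3 : r.modMonomial (Finsupp.single 1 1) = 0 := by
    ext m
    rw [coeff_zero]
    by_contra hm
    by_cases hle : Finsupp.single 1 1 ≤ m
    · exact hm (coeff_modMonomial_of_le r hle)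
    · rw [coeff_modMonomial_of_not_le r hle] at hm
      have := hrc m hm
      have h4 := h m this.2
      rw [Finsupp.single_le_iff] at hle
      omega
  refine ⟨f.divMonomial (Finsupp.single 0 1), ?_, r.divMonomial (Finsupp.single 1 1), ?_, ?_⟩
  · rw [mem_S]
    intro m hm
    rw [coeff_divMonomial] at hm
    have := h _ hm
    simp at this
    omega
  · rw [mem_S]
    intro m hm
    rw [coeff_divMonomial] at hm
    have := h _ (hrc _ hm).2
    simp at this
    omega
  · rw [h3, add_zero] at h2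
    rw [h2, h1]

variable (K) in
/-- multiplication by `x_i` on `K[x₀,x₁]` -/
noncomputable def Cx (i : Fin 2) : Module.End K (MvPolynomial (Fin 2) K) :=
  LinearMap.mulLeft K (X i)
variable (K) in
/-- `∂_i` on `K[x₀,x₁]` -/
noncomputable def Cd (i : Fin 2) : Module.End K (MvPolynomial (Fin 2) K) :=
  qd i

@[simp] theorem Cx_apply (i : Fin 2) (f : MvPolynomial (Fin 2) K) : Cx K i f = X i * f := rfl
@[simp] theorem Cd_apply (i : Fin 2) (f : MvPolynomial (Fin 2) K) : Cd K i f = qd i f := rfl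

variable (K) in
/-- windows of `C_n`: forms of degree `n + w` if the order is `≥ -2`, else `0`. -/
noncomputable def CF (n w d : ℤ) : Submodule K (MvPolynomial (Fin 2) K) :=
  if -2 ≤ d then S K (n + w) else ⊥

theorem CF_of_le {n w d : ℤ} (h : -2 ≤ d) : CF K n w d = S K (n + w) := by simp [CF, h]

theorem cS {w w' : ℤ} {f : MvPolynomial (Fin 2) K} (h : f ∈ S K w) (hw : w = w') :
    f ∈ S K w' := by subst hw; exact h

theorem kap_C {n : ℤ} (hn : 0 ≤ n) : Kap (K := K) (Cx K) (Cd K) (CF K n) where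
  k0 := by
    intro f hf h0 h1
    rw [CF_of_le (by norm_num), mem_S] at hf
    simp only [Cd_apply] at h0 h1
    ext m
    rw [coeff_zero]
    by_contra hm
    have h2 := hf m hm
    have h3 : ∃ i : Fin 2, m i ≠ 0 := by
      by_contra hc
      push Not at hc
      have := hc 0
      have := hc 1
      omega
    obtain ⟨i, hi⟩ := h3
    have e := eq_single_add hi
    have h4 := coeff_qd i (m - Finsupp.single i 1) f
    rw [← e] at h4
    have h5 : qd i f = 0 := by fin_cases i <;> assumption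
    rw [h5, coeff_zero] at h4
    rcases mul_eq_zero.1 h4.symm with h | h
    · exact qn_ne _ h
    · exact hm h
  k1 := by
    intro g₀ h₀ g₁ h₁ e0 _
    rw [CF_of_le (by norm_num)] at h₀ h₁
    simp only [Cd_apply, Cx_apply] at e0
    have e : qd 1 g₀ = qd 0 g₁ := by
      rcases mul_eq_zero.1 e0 with h | h
      · exact absurd h (X_ne_zero 0)
      · exact sub_eq_zero.1 h
    have hq : qd 0 (g₁ - qI 0 (qd 0 g₁)) = 0 := by
      rw [map_sub, qd_qI, sub_self]
    refine ⟨qI 0 g₀ + qI 1 (g₁ - qI 0 (qd 0 g₁)), ?_, ?_, ?_⟩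
    · rw [CF_of_le (by norm_num)]
      refine Submodule.add_mem _ ?_ ?_
      · exact cS (qI_mem_S h₀ 0) (by ring)
      · refine cS (qI_mem_S (Submodule.sub_mem _ h₁ ?_) 1) (by ring)
        exact cS (qI_mem_S (qd_mem_S h₁ 0) 0) (by ring)
    · rw [Cd_apply, map_add, qd_qI, qd_qI_ne (by decide), hq, map_zero, add_zero]
    · rw [Cd_apply, map_add, qd_qI, qd_qI_ne (by decide), e]
      abel
  k2 := by
    intro p₀ h₀ p₁ h₁ e
    rw [CF_of_le (by norm_num)] at h₀ h₁
    simp only [Cx_apply] at e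
    obtain ⟨u, hu, a, a'⟩ := S_kos (w := n - 1) (cS h₀ (by ring)) e
    have key : qd 1 (qI 1 u) - qd 0 (0 : MvPolynomial (Fin 2) K) = u := by
      rw [qd_qI, map_zero, sub_zero]
    refine ⟨qI 1 u, ?_, 0, ?_, ?_, ?_⟩
    · rw [CF_of_le (by norm_num)]
      exact cS (qI_mem_S hu 1) (by ring)
    · rw [CF_of_le (by norm_num)]
      exact Submodule.zero_mem _
    · simp only [Cd_apply, Cx_apply]; rw [key]; exact a
    · simp only [Cd_apply, Cx_apply]; rw [key]; exact a'
  k3 := by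
    intro f hf
    rw [CF_of_le (by norm_num)] at hf
    obtain ⟨p, hp, q, hq, rfl⟩ := S_surj (w := n) hn (cS hf (by ring))
    refine ⟨q, ?_, -p, ?_, ?_⟩
    · rw [CF_of_le (by norm_num)]; exact cS hq (by ring)
    · rw [CF_of_le (by norm_num)]; exact Submodule.neg_mem _ (cS hp (by ring))
    · simp only [Cx_apply]; ring

end Vale.Agent.P195Q.Weyl
end
end

section

section

/-!
# P195 (vanishing version): the objects, the ring `RR` and the window functor `Md`
-/

open Vale.Agent.P195Q.Weyl MvPolynomial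

namespace Vale.Agent.P195Q.Van

universe u

/-! ### The objects `O(a,b)`, `G_b`, `C_n` -/

/-- `O(a,b)`: operators, `F w e = V (a + w) (b + e)`. -/
@[reducible] noncomputable def OO (K : Type u) [Field K] [QPar K] (a b : ℤ) : GM K where
  X := D K
  x := Lx
  d := Ld
  F w e := V K (a + w) (b + e)
  xx := Lx_comm
  dd := Ld_comm
  dx := Ld_Lx
  xF i w e z hz := by
    have h := Lx_mem hz i
    rwa [show a + w + 1 = a + (w + 1) by ring] at h
  dF i w e z hz := by
    have h := Ld_mem hz i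
    rwa [show a + w - 1 = a + (w - 1) by ring, show b + e + 1 = b + (e + 1) by ring] at h
  mono w e z hz := V_mono (by omega) hz

/-- `G_b`, generated by `(1,0), (0,1)` in degree `(0,-b)` and `(x₂,-x₁)` in degree `(1,-2)`;
the windows are those of `Weyl.GG`. -/
@[reducible] noncomputable def GG (K : Type u) [Field K] [QPar K] (b : ℤ) : GM K where
  X := D K × D K
  x := Lx2
  d := Ld2
  F w e := Weyl.GG K b w e
  xx i j z := by ext1 <;> exact Lx_comm i j _
  dd i j z := by ext1 <;> exact Ld_comm i j _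
  dx i j z := by
    ext1
    · simp only [Ld2_apply, Lx2_apply, Ld_Lx, Prod.fst_add]
      split_ifs <;> rfl
    · simp only [Ld2_apply, Lx2_apply, Ld_Lx, Prod.snd_add]
      split_ifs <;> rfl
  xF i w e z hz := Lx2_mem hz i
  dF i w e z hz := Ld2_mem hz i
  mono w e z hz := GG_mono (by omega) hz

/-- `C_n = K[x₁,x₂]`, `F w e` = forms of degree `n + w` (if `-2 ≤ e`). -/
@[reducible] noncomputable def CC (K : Type u) [Field K] [QPar K] (n : ℤ) : GM K where
  X := MvPolynomial (Fin 2) K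
  x := Cx K
  d := Cd K
  F w e := CF K n w e
  xx i j z := by simp only [Cx_apply]; ring
  dd i j z := qd_comm i j z
  dx i j z := by
    simp only [Cx_apply, Cd_apply]
    by_cases h : i = j
    · subst h
      rw [qd_self, if_pos rfl, qc, if_pos rfl, smul_eq_C_mul]
      ring
    · rw [qd_ne h, if_neg h, qc, if_neg h, one_smul, add_zero]
  xF i w e z hz := by
    unfold CF at hz ⊢
    split_ifs with he
    · rw [if_pos he] at hz
      exact cS (X_mul_mem_S hz i) (by ring)
    · rw [if_neg he] at hz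
      rw [(Submodule.mem_bot K).1 hz]; simp
  dF i w e z hz := by
    unfold CF at hz ⊢
    by_cases he : -2 ≤ e
    · rw [if_pos he] at hz
      rw [if_pos (by omega)]
      exact cS (qd_mem_S hz i) (by ring)
    · rw [if_neg he] at hz
      rw [(Submodule.mem_bot K).1 hz, map_zero]; exact Submodule.zero_mem _
  mono w e z hz := by
    unfold CF at hz ⊢
    by_cases he : -2 ≤ e
    · rw [if_pos he] at hz
      rwa [if_pos (by omega)]
    · rw [if_neg he] at hz
      rw [(Submodule.mem_bot K).1 hz]; exact Submodule.zero_mem _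

theorem CC_tau (K : Type u) [Field K] [QPar K] (n : ℤ) : (CC K n).tau = CC K (n + 1) := by
  have h : (fun w e : ℤ => CF K n (w + 1) e) = fun w e => CF K (n + 1) w e := by
    funext w e
    unfold CF
    rw [show n + (w + 1) = n + 1 + w by ring]
  unfold GM.tau CC
  simp only [h]

/-- The six objects `O(0,0), O(0,1), O(0,2), G_0, G_1, O(-1,2)`. -/
@[reducible] noncomputable def TT (K : Type u) [Field K] [QPar K] (i : Fin 6) : GM K :=
  match i with
  | 0 => OO K 0 0
  | 1 => OO K 0 1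
  | 2 => OO K 0 2
  | 3 => GG K 0
  | 4 => GG K 1
  | 5 => OO K (-1) 2

/-- The generators. -/
noncomputable def gen (K : Type u) [Field K] [QPar K] (i : Fin 6) : (TT K i).X × (TT K i).X :=
  match i with
  | 0 => ((1 : D K), (0 : D K))
  | 1 => ((1 : D K), (0 : D K))
  | 2 => ((1 : D K), (0 : D K))
  | 3 => (((1, 0) : D K × D K), ((0, 1) : D K × D K))
  | 4 => (((1, 0) : D K × D K), ((0, 1) : D K × D K))
  | 5 => ((1 : D K), (0 : D K))

/-! ### The ring and its modules -/

/-- The twelve projective objects: `(true, i) ↦ J T_i`, `(false, i) ↦ J' T_i`. -/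
@[reducible] noncomputable def PE (K : Type u) [Field K] [QPar K] (v : Bool × Fin 6) : EM K :=
  match v with
  | (true, i) => EM.J (TT K i)
  | (false, i) => EM.J' (TT K i)

/-- The sum of the twelve objects. -/
noncomputable def PP (K : Type u) [Field K] [QPar K] : FMod K EOp (Bool × ℤ × ℤ) :=
  FMod.pi fun v : Bool × Fin 6 => (PE K v).toF

/-- The ring. -/
def RR (K : Type u) [Field K] [QPar K] : Type u := WAlg (PP K)

noncomputable instance (K : Type u) [Field K] [QPar K] : Ring (RR K) := inferInstanceAs (Ring (WAlg (PP K)))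
noncomputable instance (K : Type u) [Field K] [QPar K] : Algebra K (RR K) :=
  inferInstanceAs (Algebra K (WAlg (PP K)))

/-- The module of a triple. -/
def Md {K : Type u} [Field K] [QPar K] (M : EM K) : Type u := Win (PP K) M.toF

section

variable {K : Type u} [Field K] [QPar K]

noncomputable instance (M : EM K) : AddCommGroup (Md M) :=
  inferInstanceAs (AddCommGroup (Win (PP K) M.toF))
noncomputable instance (M : EM K) : Module K (Md M) :=
  inferInstanceAs (Module K (Win (PP K) M.toF))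
noncomputable instance (M : EM K) : Module (RR K) (Md M) :=
  inferInstanceAs (Module (WAlg (PP K)) (Win (PP K) M.toF))
instance (M : EM K) : IsScalarTower K (RR K) (Md M) :=
  inferInstanceAs (IsScalarTower K (WAlg (PP K)) (Win (PP K) M.toF))

/-- Functoriality of `Md`. -/
noncomputable def Md.map {M N : EM K} {a : M.A.X →ₗ[K] N.A.X} {b : M.B.X →ₗ[K] N.B.X}
    (h : IsE M N a b) : Md M →ₗ[RR K] Md N := Win.map (PP K) (a.prodMap b) h.mem

end

end Vale.Agent.P195Q.Van
end
end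

section

section

/-!
# P195 (vanishing version): the functor `Md`, and the generic part of step A

* `ESES.md`: short exact sequences of `EM`'s give short exact sequences of `RR K`-modules.
* `SumT`: finite sums of the six objects; `J Z`, `J' Z` are then projective.
* `Md.exists_map`, `Md.map_inj`: full faithfulness of `Md` on such objects.
* `orth_W_J`: `Orth (W T) (J F)` from a resolution `0 → Q1 → Q0 → τ T → 0`.
-/

namespace Vale.Agent.P195Q.Van

universe u

variable {K : Type u} [Field K] [QPar K]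

/-- the six objects have the universal generators `gen K i` -/
def RepT (K : Type u) [Field K] [QPar K] : Prop := ∀ i, Rep (TT K i) i (gen K i)

theorem RepT.isBase (hT : RepT K) : IsBase (PP K) := by
  refine ⟨Bool × Fin 6, inferInstance, inferInstance, fun v => (PE K v).toF, ?_, rfl⟩
  rintro ⟨b, i⟩
  cases b
  · exact IsVert.J' (hT i)
  · exact IsVert.J (hT i)

section

variable {M N L : EM K} {a : M.A.X →ₗ[K] N.A.X} {b : M.B.X →ₗ[K] N.B.X}
    {a' : N.A.X →ₗ[K] L.A.X} {b' : N.B.X →ₗ[K] L.B.X}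

/-- Short exact sequences of modules from short exact sequences of `EM`'s. -/
theorem ESES.md (h : ESES M N L a b a' b') (hT : RepT K) : SES (Md.map h.e) (Md.map h.e') :=
  h.ses hT.isBase

theorem Md.map_comp (h : IsE M N a b) (h' : IsE N L a' b') :
    Md.map h' ∘ₗ Md.map h = Md.map (h'.comp h) := rfl

theorem Md.map_congr {a₁ : M.A.X →ₗ[K] N.A.X} {b₁ : M.B.X →ₗ[K] N.B.X} (h : IsE M N a b)
    (h₁ : IsE M N a₁ b₁) (ha : a = a₁) (hb : b = b₁) : Md.map h = Md.map h₁ := by
  subst ha; subst hb; rfl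

theorem IsE.zero (M N : EM K) : IsE M N 0 0 :=
  ⟨IsG.zero _ _, IsG.zero _ _, fun z => by simp, fun z => by simp⟩

theorem Md.map_zero : Md.map (IsE.zero M N) = 0 := by
  apply LinearMap.ext
  intro φ
  apply Win.ext'
  exact LinearMap.ext fun x => Prod.ext rfl rfl

theorem Md.map_eq_zero' (h : IsE M N a b) (ha : a = 0) (hb : b = 0) : Md.map h = 0 := by
  rw [Md.map_congr h (IsE.zero M N) ha hb, Md.map_zero]

/-! ### Projectivity and full faithfulness -/

/-- the module of `M` is a summand of a finite free module -/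
def PRet (M : EM K) : Prop := IsRetract (PP K) M.toF

theorem PRet.projective (h : PRet M) : Module.Projective (RR K) (Md M) :=
  IsRetract.projective h

theorem PRet.finite (h : PRet M) : Module.Finite (RR K) (Md M) :=
  IsRetract.finite h

theorem PRet.exists_map (h : PRet M) (φ : Md M →ₗ[RR K] Md N) :
    ∃ a b, ∃ e : IsE M N a b, φ = Md.map e := by
  obtain ⟨g, hg, hφ⟩ := IsRetract.exists_map h (X := N.toF) φ
  obtain ⟨a, b, e, rfl⟩ := exists_isE_of_mem hg
  exact ⟨a, b, e, hφ⟩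

theorem PRet.map_eq_zero (hM : PRet M) (h : IsE M N a b) (h0 : Md.map h = 0) :
    a = 0 ∧ b = 0 :=
  prodMap_eq_zero (IsRetract.map_eq_zero hM h.mem h0)

end

theorem IsRetract.of_two {ι J : Type} {P X Y Z : FMod K ι J} (hX : IsRetract P X)
    (hY : IsRetract P Y) {i₁ : X.X →ₗ[K] Z.X} {p₁ : Z.X →ₗ[K] X.X} {i₂ : Y.X →ₗ[K] Z.X}
    {p₂ : Z.X →ₗ[K] Y.X} (hi₁ : i₁ ∈ FHom X Z) (hp₁ : p₁ ∈ FHom Z X) (hi₂ : i₂ ∈ FHom Y Z)
    (hp₂ : p₂ ∈ FHom Z Y) (h : ∀ z, i₁ (p₁ z) + i₂ (p₂ z) = z) : IsRetract P Z :=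
  (hX.prod hY).trans (IsRetract.of_pair (i₁.coprod i₂) (p₁.prod p₂) (FMod.coprod_mem hi₁ hi₂)
    (FMod.prod_mem hp₁ hp₂) h)

theorem PRet.of_two {M N L : EM K} (hM : PRet M) (hN : PRet N)
    {a₁ : M.A.X →ₗ[K] L.A.X} {b₁ : M.B.X →ₗ[K] L.B.X} (h₁ : IsE M L a₁ b₁)
    {a₂ : N.A.X →ₗ[K] L.A.X} {b₂ : N.B.X →ₗ[K] L.B.X} (h₂ : IsE N L a₂ b₂)
    {c₁ : L.A.X →ₗ[K] M.A.X} {d₁ : L.B.X →ₗ[K] M.B.X} (k₁ : IsE L M c₁ d₁)
    {c₂ : L.A.X →ₗ[K] N.A.X} {d₂ : L.B.X →ₗ[K] N.B.X} (k₂ : IsE L N c₂ d₂)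
    (hA : ∀ z, a₁ (c₁ z) + a₂ (c₂ z) = z) (hB : ∀ z, b₁ (d₁ z) + b₂ (d₂ z) = z) : PRet L :=
  IsRetract.of_two hM hN h₁.mem k₁.mem h₂.mem k₂.mem fun z => Prod.ext (hA z.1) (hB z.2)

theorem isG_inl (A B : GM K) : IsG A (A.prod B) (LinearMap.inl K A.X B.X) :=
  (GSES.inl_snd A B).gf
theorem isG_snd (A B : GM K) : IsG (A.prod B) B (LinearMap.snd K A.X B.X) :=
  (GSES.inl_snd A B).gg
theorem isG_inr (A B : GM K) : IsG B (A.prod B) (LinearMap.inr K A.X B.X) :=
  (GSES.inr_fst A B).gf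
theorem isG_fst (A B : GM K) : IsG (A.prod B) A (LinearMap.fst K A.X B.X) :=
  (GSES.inr_fst A B).gg

theorem IsG.coprod {A B C : GM K} {φ : A.X →ₗ[K] C.X} {ψ : B.X →ₗ[K] C.X} (hφ : IsG A C φ)
    (hψ : IsG B C ψ) : IsG (A.prod B) C (φ.coprod ψ) := by
  refine ⟨fun i z => ?_, fun i z => ?_, fun w e z hz => ?_⟩
  · simp only [LinearMap.coprod_apply, LinearMap.prodMap_apply, hφ.x, hψ.x, map_add]
  · simp only [LinearMap.coprod_apply, LinearMap.prodMap_apply, hφ.d, hψ.d, map_add]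
  · exact (C.F w e).add_mem (hφ.F _ _ _ hz.1) (hψ.F _ _ _ hz.2)

theorem IsG.prod {A B C : GM K} {φ : C.X →ₗ[K] A.X} {ψ : C.X →ₗ[K] B.X} (hφ : IsG C A φ)
    (hψ : IsG C B ψ) : IsG C (A.prod B) (φ.prod ψ) :=
  ⟨fun i z => Prod.ext (hφ.x i z) (hψ.x i z), fun i z => Prod.ext (hφ.d i z) (hψ.d i z),
    fun w e z hz => ⟨hφ.F w e z hz, hψ.F w e z hz⟩⟩

theorem PRet.J_prod {A B : GM K} (hA : PRet (EM.J A)) (hB : PRet (EM.J B)) :
    PRet (EM.J (A.prod B)) :=
  PRet.of_two hA hB (isG_inl A B).J (isG_inr A B).J (isG_fst A B).J (isG_snd A B).J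
    (fun z => by ext <;> simp) (fun z => by ext <;> simp)

theorem PRet.J'_prod {A B : GM K} (hA : PRet (EM.J' A)) (hB : PRet (EM.J' B)) :
    PRet (EM.J' (A.prod B)) :=
  PRet.of_two hA hB (isG_inl A B).J' (isG_inr A B).J' (isG_fst A B).J' (isG_snd A B).J'
    (fun z => Subsingleton.elim _ _) (fun z => by ext <;> simp)

/-- `(Q1 → Ind (Q1 × Q0))`, i.e. `J Q1 ⊕ J' Q0`. -/
@[reducible] def EM.JJ (Q1 Q0 : GM K) : EM K where
  A := Q1
  B := (Q1.prod Q0).ind
  r := indR (Q1.prod Q0)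
  t := LinearMap.inl K (Q1.X × Q0.X) (Q1.X × Q0.X) ∘ₗ LinearMap.inl K Q1.X Q0.X
  rx i z := by rw [indR_apply, indR_apply]; ext <;> simp
  rd i z := by rw [indR_apply, indR_apply]; ext <;> simp
  rr z := by rw [indR_apply, indR_apply]; rfl
  rF := indR_F (Q1.prod Q0)
  tG := (isG_inl (Q1.prod Q0) (Q1.prod Q0).tau).comp (isG_inl Q1 Q0)

theorem PRet.JJ {A B : GM K} (hA : PRet (EM.J A)) (hB : PRet (EM.J' B)) :
    PRet (EM.JJ A B) := by
  refine PRet.of_two hA hB (L := EM.JJ A B) (a₁ := LinearMap.id)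
    (b₁ := (LinearMap.inl K A.X B.X).prodMap (LinearMap.inl K A.X B.X))
    ⟨IsG.id _, (isG_inl A B).ind, fun z => ?_, fun z => ?_⟩ (a₂ := 0)
    (b₂ := (LinearMap.inr K A.X B.X).prodMap (LinearMap.inr K A.X B.X))
    ⟨IsG.zero _ _, (isG_inr A B).ind, fun z => ?_, fun z => ?_⟩
    (c₁ := LinearMap.id)
    (d₁ := (LinearMap.fst K A.X B.X).prodMap (LinearMap.fst K A.X B.X))
    ⟨IsG.id _, (isG_fst A B).ind, fun z => ?_, fun z => ?_⟩ (c₂ := 0)
    (d₂ := (LinearMap.snd K A.X B.X).prodMap (LinearMap.snd K A.X B.X))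
    ⟨IsG.zero _ _, (isG_snd A B).ind, fun z => ?_, fun z => ?_⟩ (fun z => ?_) (fun z => ?_)
  · rw [indR_apply, indR_apply]; ext <;> simp
  · ext <;> simp
  · rw [indR_apply, indR_apply]; ext <;> simp
  · ext <;> simp
  · rw [indR_apply, indR_apply]; ext <;> simp
  · ext <;> simp
  · rw [indR_apply, indR_apply]; ext <;> simp
  · ext <;> simp
  · simp
  · ext <;> simp

theorem PRet.zero {M : EM K} (hA : Subsingleton M.A.X) (hB : Subsingleton M.B.X) : PRet M :=
  IsRetract.of_pair 0 0 (FHom _ _).zero_mem (FHom _ _).zero_mem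
    fun _ => Prod.ext (Subsingleton.elim _ _) (Subsingleton.elim _ _)

/-- finite sums of the six objects -/
inductive SumT : GM K → Prop
  | t (i : Fin 6) : SumT (TT K i)
  | zero : SumT (GM.zero K)
  | prod (A B : GM K) : SumT A → SumT B → SumT (A.prod B)

theorem SumT.J {Z : GM K} (h : SumT Z) : PRet (EM.J Z) := by
  induction h with
  | t i => exact FMod.isRetract_factor (fun v : Bool × Fin 6 => (PE K v).toF) (true, i)
  | zero => exact PRet.zero inferInstance inferInstance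
  | prod A B _ _ hA hB => exact hA.J_prod hB

theorem SumT.J' {Z : GM K} (h : SumT Z) : PRet (EM.J' Z) := by
  induction h with
  | t i => exact FMod.isRetract_factor (fun v : Bool × Fin 6 => (PE K v).toF) (false, i)
  | zero => exact PRet.zero inferInstance inferInstance
  | prod A B _ _ hA hB => exact hA.J'_prod hB

end Vale.Agent.P195Q.Van
end
end

section

section

/-!
# P195: truncation lemmas for the symbol space

If `A₀ h₀ + A₁ h₁` lies in a window then `h₀, h₁` can be replaced by elements of the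
corresponding shifted window (`A = Lx, Rx, Ld, Rd`), for all weights and orders.
-/

namespace Vale.Agent.P195Q.Weyl

open MvPolynomial

universe u

variable {K : Type u} [Field K] [QPar K]

open Classical in
variable (K) in
/-- the projection onto `V w d` killing the other monomials -/
noncomputable def tr (w d : ℤ) : D K →ₗ[K] D K :=
  (basisMonomials (Fin 2 ⊕ Fin 2) K).constr K (fun m =>
    if xdeg m = w + kdeg m ∧ kdeg m ≤ d then monomial m 1 else 0)

open Classical in
theorem tr_monomial (w d : ℤ) (m : (Fin 2 ⊕ Fin 2) →₀ ℕ) :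
    tr K w d (monomial m 1) = if xdeg m = w + kdeg m ∧ kdeg m ≤ d then monomial m 1 else 0 := by
  have := (basisMonomials (Fin 2 ⊕ Fin 2) K).constr_basis K (fun m =>
    if xdeg m = w + kdeg m ∧ kdeg m ≤ d then (monomial m 1 : D K) else 0) m
  rw [coe_basisMonomials] at this
  exact this

theorem mem_of_mon {E : Type*} [AddCommGroup E] [Module K E] (T : D K →ₗ[K] E)
    (W : Submodule K E) (h : ∀ m, T (monomial m 1) ∈ W) (f : D K) : T f ∈ W := by
  have h1 : (⊤ : Submodule K (D K)) ≤ W.comap T := by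
    rw [← (basisMonomials (Fin 2 ⊕ Fin 2) K).span_eq, Submodule.span_le]
    rintro _ ⟨m, rfl⟩
    rw [coe_basisMonomials]
    exact h m
  exact h1 (Submodule.mem_top : f ∈ ⊤)

theorem tr_mem (w d : ℤ) (f : D K) : tr K w d f ∈ V K w d := by
  apply mem_of_mon
  intro m
  rw [tr_monomial]
  split_ifs with h
  · exact mon_mem_V h.1 h.2
  · exact Submodule.zero_mem _

theorem tr_eq {w d : ℤ} {f : D K} (h : f ∈ V K w d) : tr K w d f = f := by
  have := V_le_comap (tr K w d - LinearMap.id) ⊥ (w := w) (d := d) (by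
    intro m h1 h2
    rw [LinearMap.sub_apply, tr_monomial, if_pos ⟨h1, h2⟩, LinearMap.id_apply, sub_self]
    exact Submodule.zero_mem _) f h
  rw [Submodule.mem_bot, LinearMap.sub_apply, LinearMap.id_apply, sub_eq_zero] at this
  exact this

theorem tr_Lx (w d : ℤ) (i : Fin 2) (f : D K) : tr K (w + 1) d (Lx i f) = Lx i (tr K w d f) := by
  have : (tr K (w + 1) d) ∘ₗ (Lx i) = (Lx i) ∘ₗ (tr K w d) := by
    apply ext_mon
    intro m
    rw [LinearMap.comp_apply, LinearMap.comp_apply, Lx_apply, ← mon_single_add, tr_monomial,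
      tr_monomial, xdeg_add, kdeg_add, xdeg_inl, kdeg_inl]
    by_cases h : xdeg m = w + kdeg m ∧ kdeg m ≤ d
    · rw [if_pos h, if_pos (by constructor <;> omega), Lx_apply, mon_single_add]
    · rw [if_neg h, if_neg (by omega), map_zero]
  exact LinearMap.congr_fun this f

theorem Lx_trunc {w d : ℤ} {p q : D K} (h : Lx 0 p + Lx 1 q ∈ V K (w + 1) d) :
    ∃ p' ∈ V K w d, ∃ q' ∈ V K w d, Lx 0 p + Lx 1 q = Lx 0 p' + Lx 1 q' := by
  refine ⟨tr K w d p, tr_mem _ _ _, tr K w d q, tr_mem _ _ _, ?_⟩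
  rw [← tr_Lx, ← tr_Lx, ← map_add, tr_eq h]

theorem Rx_trunc {w d : ℤ} {p q : D K} (h : Rx 0 p + Rx 1 q ∈ V K (w + 1) d) :
    ∃ p' ∈ V K w d, ∃ q' ∈ V K w d, Rx 0 p + Rx 1 q = Rx 0 p' + Rx 1 q' := by
  obtain ⟨p', hp, q', hq, e⟩ := Lx_trunc (p := E' K p) (q := E' K q) (w := w) (d := d)
    (by rw [← E'_Rx, ← E'_Rx, ← map_add]; exact E'_mem h)
  refine ⟨E K p', E_mem hp, E K q', E_mem hq, ?_⟩
  rw [← E_Lx, ← E_Lx, ← map_add, ← e, map_add, E_Lx, E_Lx, E_E', E_E']

end Vale.Agent.P195Q.Weyl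
end
end

section

section

/-!
# P195: transfer to the endomorphism ring of a projective module (step E)

For an `R`-module `P0` the ring `EndOp R P0 = (End_R P0)ᵒᵖ` acts on `HM R P0 M = Hom_R (P0, M)`.
-/

open Function

namespace Vale.Agent.P195Q.Van

universe u

/-- The opposite endomorphism ring. -/
abbrev EndOp (R : Type u) [Ring R] (P0 : Type u) [AddCommGroup P0] [Module R P0] : Type u :=
  (Module.End R P0)ᵐᵒᵖ

/-- The maps from P0 to M as a module over the opposite endomorphism ring. -/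
def HM (R : Type u) [Ring R] (P0 : Type u) [AddCommGroup P0] [Module R P0]
    (M : Type u) [AddCommGroup M] [Module R M] : Type u := P0 →ₗ[R] M

section basic

variable {R : Type u} [Ring R] {P0 : Type u} [AddCommGroup P0] [Module R P0]
  {M N L : Type u} [AddCommGroup M] [Module R M] [AddCommGroup N] [Module R N]
  [AddCommGroup L] [Module R L]

instance : AddCommGroup (HM R P0 M) := inferInstanceAs (AddCommGroup (P0 →ₗ[R] M))

/-- the underlying linear map -/
def HM.lin (φ : HM R P0 M) : P0 →ₗ[R] M := φ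

/-- constructor -/
def HM.mk (φ : P0 →ₗ[R] M) : HM R P0 M := φ

@[simp] theorem HM.lin_mk (φ : P0 →ₗ[R] M) : (HM.mk φ).lin = φ := rfl

@[simp] theorem HM.mk_lin (φ : HM R P0 M) : HM.mk φ.lin = φ := rfl

theorem HM.ext' {φ ψ : HM R P0 M} (h : φ.lin = ψ.lin) : φ = ψ := h

@[simp] theorem HM.lin_add (φ ψ : HM R P0 M) : (φ + ψ).lin = φ.lin + ψ.lin := rfl

@[simp] theorem HM.lin_zero : (0 : HM R P0 M).lin = 0 := rfl

instance : SMul (EndOp R P0) (HM R P0 M) := ⟨fun a φ => HM.mk (φ.lin ∘ₗ a.unop)⟩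

@[simp] theorem HM.lin_smul (a : EndOp R P0) (φ : HM R P0 M) :
    (a • φ).lin = φ.lin ∘ₗ a.unop := rfl

instance : Module (EndOp R P0) (HM R P0 M) where
  one_smul φ := by
    apply HM.ext'; simp; rfl
  mul_smul a b φ := by
    apply HM.ext'; simp; rfl
  smul_zero a := by
    apply HM.ext'; simp
  smul_add a φ ψ := by
    apply HM.ext'; simp [LinearMap.add_comp]
  add_smul a b φ := by
    apply HM.ext'; simp [LinearMap.comp_add]
  zero_smul φ := by
    apply HM.ext'; simp

/-- Functoriality. -/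
def HM.map (P0 : Type u) [AddCommGroup P0] [Module R P0] (f : M →ₗ[R] N) :
    HM R P0 M →ₗ[EndOp R P0] HM R P0 N where
  toFun φ := HM.mk (f ∘ₗ φ.lin)
  map_add' φ ψ := by
    apply HM.ext'; simp [LinearMap.comp_add]
  map_smul' a φ := by
    apply HM.ext'; simp [LinearMap.comp_assoc]

@[simp] theorem HM.lin_map (f : M →ₗ[R] N) (φ : HM R P0 M) :
    (HM.map P0 f φ).lin = f ∘ₗ φ.lin := rfl

theorem HM.map_comp (f : M →ₗ[R] N) (g : N →ₗ[R] L) :
    HM.map P0 (g ∘ₗ f) = HM.map P0 g ∘ₗ HM.map P0 f := rfl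

/-- `Hom (P0, P0 ^ k)` is free. -/
def HM.piEquiv (k : ℕ) : HM R P0 (Fin k → P0) ≃ₗ[EndOp R P0] (Fin k → EndOp R P0) where
  toFun φ j := MulOpposite.op (LinearMap.proj j ∘ₗ φ.lin)
  invFun ψ := HM.mk (LinearMap.pi fun j => (ψ j).unop)
  left_inv _ := rfl
  right_inv _ := rfl
  map_add' _ _ := rfl
  map_smul' _ _ := rfl

instance (k : ℕ) : Module.Projective (EndOp R P0) (HM R P0 (Fin k → P0)) :=
  Module.Projective.of_equiv (HM.piEquiv k).symm

/-- `Hom (P0, P0)` is the regular module. -/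
def HM.selfEquiv : HM R P0 P0 ≃ₗ[EndOp R P0] EndOp R P0 where
  toFun φ := MulOpposite.op φ.lin
  invFun ψ := HM.mk ψ.unop
  left_inv _ := rfl
  right_inv _ := rfl
  map_add' _ _ := rfl
  map_smul' _ _ := rfl

theorem HM.sum_lin {ι : Type*} (s : Finset ι) (φ : ι → HM R P0 M) :
    (∑ i ∈ s, φ i).lin = ∑ i ∈ s, (φ i).lin := by
  let F : HM R P0 M →+ (P0 →ₗ[R] M) :=
    { toFun := HM.lin, map_zero' := rfl, map_add' := fun _ _ => rfl }
  exact map_sum F φ s

/-- A linear map out of `P0 ^ k` precomposed with a map into `P0 ^ k`. -/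
theorem comp_eq_sum {k : ℕ} (g : (Fin k → P0) →ₗ[R] M) (ψ : P0 →ₗ[R] (Fin k → P0)) :
    g ∘ₗ ψ = ∑ j, (g ∘ₗ LinearMap.single R (fun _ => P0) j) ∘ₗ (LinearMap.proj j ∘ₗ ψ) := by
  apply LinearMap.ext
  intro x
  rw [LinearMap.sum_apply]
  simp only [LinearMap.comp_apply, LinearMap.proj_apply]
  rw [← map_sum]
  congr 1
  exact (LinearMap.sum_single_apply (fun _ => P0) (ψ x)).symm

end basic

/-- Cover data: `0 → M' → P0 ^ k → M` with the properties needed for the transfer. -/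
structure Cover (R : Type u) [Ring R] (P0 N M M' : Type u) [AddCommGroup P0] [Module R P0]
    [AddCommGroup N] [Module R N] [AddCommGroup M] [Module R M] [AddCommGroup M']
    [Module R M'] where
  k : ℕ
  g : (Fin k → P0) →ₗ[R] M
  a : M' →ₗ[R] (Fin k → P0)
  inj : Injective a
  exact : Exact a g
  lift : ∀ φ : P0 →ₗ[R] M, ∃ ψ : P0 →ₗ[R] (Fin k → P0), g ∘ₗ ψ = φ
  hom0 : ∀ f : M →ₗ[R] N, f ∘ₗ g = 0 → f = 0
  ext : ∀ u : (Fin k → P0) →ₗ[R] N, u ∘ₗ a = 0 → ∃ f : M →ₗ[R] N, f ∘ₗ g = u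
  ext' : ∀ v : M' →ₗ[R] N, ∃ u : (Fin k → P0) →ₗ[R] N, u ∘ₗ a = v

/-- The short exact sequence `0 → Hom (P0, M') → Hom (P0, P0 ^ k) → Hom (P0, M) → 0`. -/
theorem Cover.ses {R : Type u} [Ring R] {P0 N M M' : Type u} [AddCommGroup P0] [Module R P0]
    [AddCommGroup N] [Module R N] [AddCommGroup M] [Module R M] [AddCommGroup M']
    [Module R M'] (c : Cover R P0 N M M') : SES (HM.map P0 c.a) (HM.map P0 c.g) := by
  refine ⟨?_, ?_, ?_⟩
  · intro φ ψ hφψ
    apply HM.ext'
    apply LinearMap.ext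
    intro x
    exact c.inj (LinearMap.congr_fun (congrArg HM.lin hφψ) x)
  · intro φ
    constructor
    · intro hφ
      have h1 : ∀ x, ∃ y, c.a y = φ.lin x := fun x =>
        (c.exact (φ.lin x)).1 (LinearMap.congr_fun (congrArg HM.lin hφ) x)
      choose y hy using h1
      refine ⟨HM.mk
        { toFun := y
          map_add' := fun p q => c.inj (by rw [map_add, hy, hy, hy, map_add])
          map_smul' := fun r p => c.inj (by
            rw [RingHom.id_apply, map_smul, hy, hy, map_smul]) }, ?_⟩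
      apply HM.ext'
      apply LinearMap.ext
      intro x
      exact hy x
    · rintro ⟨ψ, rfl⟩
      apply HM.ext'
      apply LinearMap.ext
      intro x
      exact (c.exact (c.a (ψ.lin x))).2 ⟨_, rfl⟩
  · intro φ
    obtain ⟨ψ, hψ⟩ := c.lift φ.lin
    exact ⟨HM.mk ψ, HM.ext' hψ⟩

section transfer

variable {R : Type u} [Ring R] {P0 : Type u} [AddCommGroup P0] [Module R P0]
  {N : Type u} [AddCommGroup N] [Module R N]

/-- A class of modules with cover data. -/
def CoverClass (P0 N : Type u) [AddCommGroup P0] [Module R P0] [AddCommGroup N] [Module R N]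
    (𝒞 : ∀ (X : Type u) [AddCommGroup X] [Module R X], Prop) : Prop :=
  ∀ (X : Type u) [AddCommGroup X] [Module R X], 𝒞 X →
    ∃ (X' : Type u) (_ : AddCommGroup X') (_ : Module R X'), 𝒞 X' ∧
      Nonempty (Cover R P0 N X X')

variable {𝒞 : ∀ (X : Type u) [AddCommGroup X] [Module R X], Prop}
  (h𝒞 : CoverClass P0 N 𝒞)

include h𝒞

/-- Faithfulness on the class. -/
theorem CoverClass.eq_zero {M : Type u} [AddCommGroup M] [Module R M] (hM : 𝒞 M)
    (f : M →ₗ[R] N) (hf : ∀ φ : P0 →ₗ[R] M, f ∘ₗ φ = 0) : f = 0 := by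
  obtain ⟨M', _, _, _, ⟨c⟩⟩ := h𝒞 M hM
  apply c.hom0
  apply LinearMap.pi_ext'
  intro j
  rw [LinearMap.comp_assoc, hf, LinearMap.zero_comp]

/-- Fullness on the class: every linear map `Hom (P0, M) → Hom (P0, N)` is induced by a map
`M → N`. -/
theorem CoverClass.full {M : Type u} [AddCommGroup M] [Module R M] (hM : 𝒞 M)
    (h : HM R P0 M →ₗ[EndOp R P0] HM R P0 N) : ∃ f : M →ₗ[R] N, HM.map P0 f = h := by
  obtain ⟨M', _, _, hM', ⟨c⟩⟩ := h𝒞 M hM
  let u : (Fin c.k → P0) →ₗ[R] N :=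
    ∑ j, (h (HM.mk (c.g ∘ₗ LinearMap.single R (fun _ => P0) j))).lin ∘ₗ LinearMap.proj j
  have key : ∀ ψ : P0 →ₗ[R] (Fin c.k → P0), u ∘ₗ ψ = (h (HM.mk (c.g ∘ₗ ψ))).lin := by
    intro ψ
    have h1 : HM.mk (c.g ∘ₗ ψ) = ∑ j, (MulOpposite.op (LinearMap.proj j ∘ₗ ψ) : EndOp R P0) •
        HM.mk (c.g ∘ₗ LinearMap.single R (fun _ => P0) j) := by
      apply HM.ext'
      rw [HM.sum_lin, HM.lin_mk, comp_eq_sum]
      rfl
    rw [h1, map_sum, HM.sum_lin]
    apply LinearMap.ext
    intro x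
    rw [LinearMap.comp_apply, LinearMap.sum_apply, LinearMap.sum_apply]
    apply Finset.sum_congr rfl
    intro j _
    rw [map_smul]
    rfl
  have hu : u ∘ₗ c.a = 0 := by
    apply h𝒞.eq_zero hM'
    intro φ
    rw [LinearMap.comp_assoc, key]
    have h0 : c.g ∘ₗ (c.a ∘ₗ φ) = 0 := by
      apply LinearMap.ext
      intro x
      exact (c.exact (c.a (φ x))).2 ⟨φ x, rfl⟩
    rw [h0]
    change (h 0).lin = 0
    rw [map_zero]
    rfl
  obtain ⟨f, hf⟩ := c.ext u hu
  refine ⟨f, ?_⟩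
  apply LinearMap.ext
  intro φ
  apply HM.ext'
  obtain ⟨ψ, hψ⟩ := c.lift φ.lin
  rw [HM.lin_map, ← hψ, ← LinearMap.comp_assoc, hf, key, hψ]
  rfl

/-- Vanishing of the positive Ext groups over the endomorphism ring. -/
theorem CoverClass.orthPos {M : Type u} [AddCommGroup M] [Module R M] (hM : 𝒞 M) :
    OrthPos (EndOp R P0) (HM R P0 M) (HM R P0 N) := by
  intro i
  induction i generalizing M with
  | zero =>
    obtain ⟨M', _, _, hM', ⟨c⟩⟩ := h𝒞 M hM
    refine c.ses.ez_one (orthPos_of_projective 0) fun v => ?_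
    obtain ⟨v', rfl⟩ := h𝒞.full hM' v
    obtain ⟨u, rfl⟩ := c.ext' v'
    exact ⟨HM.map P0 u, (HM.map_comp c.a u).symm⟩
  | succ i ih =>
    obtain ⟨M', _, _, hM', ⟨c⟩⟩ := h𝒞 M hM
    exact c.ses.ez_right (ih hM') (orthPos_of_projective (i + 1))

end transfer

/-! ### Cover data from orthogonality -/

section cover

variable {R : Type u} [Ring R] [IsNoetherianRing R]
  {P0 : Type u} [AddCommGroup P0] [Module R P0] [Module.Finite R P0] [Module.Projective R P0]
  {N : Type u} [AddCommGroup N] [Module R N] {S : Type u} [AddCommGroup S] [Module R S]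

/-- The class of step E. -/
def StepE (R : Type u) [Ring R] (S N : Type u) [AddCommGroup S] [Module R S] [AddCommGroup N]
    [Module R N] (M : Type u) [AddCommGroup M] [Module R M] : Prop :=
  Module.Finite R M ∧ Orth R M S ∧ OrthPos R M N

/-- The hypothesis on the modules `C` with `Hom (P0, C) = 0`. -/
def StepEHyp (R : Type u) [Ring R] (P0 S N : Type u) [AddCommGroup P0] [Module R P0]
    [AddCommGroup S] [Module R S] [AddCommGroup N] [Module R N] : Prop :=
  ∀ (C : Type u) [AddCommGroup C] [Module R C], Module.Finite R C →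
    (∀ f : P0 →ₗ[R] C, f = 0) → (∀ f : C →ₗ[R] S, f = 0) → EZ R 1 C S →
    Orth R C N ∧ Orth R C S

omit [Module.Finite R P0] [Module.Projective R P0] in
/-- The trace of `P0` in a noetherian module is the image of some `P0 ^ k`. -/
theorem exists_trace (M : Type u) [AddCommGroup M] [Module R M] [Module.Finite R M] :
    ∃ (k : ℕ) (g : (Fin k → P0) →ₗ[R] M), ∀ φ : P0 →ₗ[R] M,
      LinearMap.range φ ≤ LinearMap.range g := by
  have hN : IsNoetherian R M := inferInstance
  have hfg : (⨆ φ : P0 →ₗ[R] M, LinearMap.range φ).FG := hN.noetherian _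
  have hc := (Submodule.fg_iff_compact _).1 hfg
  obtain ⟨s, hs⟩ := CompleteLattice.IsCompactElement.exists_finset_of_le_iSup _ hc
    (fun φ : P0 →ₗ[R] M => LinearMap.range φ) le_rfl
  let e := s.equivFin.symm
  refine ⟨s.card, ∑ j, (e j : P0 →ₗ[R] M) ∘ₗ LinearMap.proj j, fun φ => ?_⟩
  refine (le_iSup (fun φ : P0 →ₗ[R] M => LinearMap.range φ) φ).trans (hs.trans ?_)
  refine iSup₂_le fun ψ hψ => ?_
  rintro _ ⟨x, rfl⟩
  refine ⟨Pi.single (s.equivFin ⟨ψ, hψ⟩) x, ?_⟩
  rw [LinearMap.sum_apply, Finset.sum_eq_single (s.equivFin ⟨ψ, hψ⟩)]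
  · simp [e]
  · intro b _ hb
    simp [hb]
  · intro h
    exact absurd (Finset.mem_univ _) h

/-- Step E: the class `StepE` has cover data. -/
theorem coverClass_stepE (hPS : ∀ f : P0 →ₗ[R] S, f = 0) (hH : StepEHyp R P0 S N) :
    CoverClass (R := R) P0 N (fun X _ _ => StepE R S N X) := by
  intro M _ _ hM
  obtain ⟨hfin, hMS, hMN⟩ := hM
  obtain ⟨k, g, hg⟩ := exists_trace (R := R) (P0 := P0) M
  let W := LinearMap.range g
  let C := M ⧸ W
  have sC : SES W.subtype W.mkQ :=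
    ⟨W.subtype_injective, LinearMap.exact_subtype_mkQ W, W.mkQ_surjective⟩
  let K := LinearMap.ker g
  have sK : SES K.subtype g.rangeRestrict := by
    refine ⟨K.subtype_injective, ?_, g.surjective_rangeRestrict⟩
    intro x
    constructor
    · intro hx
      exact ⟨⟨x, LinearMap.mem_ker.2 (congrArg Subtype.val hx)⟩, rfl⟩
    · rintro ⟨y, rfl⟩
      exact Subtype.ext (LinearMap.mem_ker.1 y.2)
  have hPC : ∀ f : P0 →ₗ[R] C, f = 0 := by
    intro f
    obtain ⟨φ, hφ⟩ := Module.projective_lifting_property W.mkQ f W.mkQ_surjective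
    apply LinearMap.ext
    intro x
    rw [← hφ, LinearMap.comp_apply, LinearMap.zero_apply]
    exact (Submodule.Quotient.mk_eq_zero _).2 (hg φ ⟨x, rfl⟩)
  have hCS : ∀ f : C →ₗ[R] S, f = 0 := by
    intro f
    have h1 := hMS.hom (f ∘ₗ W.mkQ)
    apply LinearMap.ext
    intro x
    obtain ⟨y, rfl⟩ := W.mkQ_surjective x
    exact LinearMap.congr_fun h1 y
  have hkS : ∀ f : (Fin k → P0) →ₗ[R] S, f = 0 := by
    intro f
    apply LinearMap.pi_ext'
    intro j
    exact (hPS _).trans (hPS _).symm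
  have hWS : ∀ f : W →ₗ[R] S, f = 0 := by
    intro f
    have h1 := hkS (f ∘ₗ g.rangeRestrict)
    apply LinearMap.ext
    intro x
    obtain ⟨y, rfl⟩ := g.surjective_rangeRestrict x
    exact LinearMap.congr_fun h1 y
  have hC1 : EZ R 1 C S := by
    refine sC.ez_one (hMS 1) fun u => ⟨0, ?_⟩
    rw [hWS u, LinearMap.zero_comp]
  have hCfin : Module.Finite R C := inferInstance
  obtain ⟨hCN, hCS'⟩ := hH C hCfin hPC hCS hC1
  have hWS' : Orth R W S := sC.orth_left₁ hMS hCS'
  have hWN : OrthPos R W N := sC.orthPos_left₁ hMN hCN.pos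
  have hPk : Module.Projective R (Fin k → P0) := by
    exact Module.Projective.of_equiv
      (DirectSum.linearEquivFunOnFintype R (Fin k) fun _ => P0)
  have hKS : Orth R K S := sK.orth_left₁ (orth_of_projective hkS) hWS'
  have hKN : OrthPos R K N := sK.orthPos_left₁ orthPos_of_projective hWN
  have hKfin : Module.Finite R K := by
    have hN : IsNoetherian R (Fin k → P0) := inferInstance
    infer_instance
  refine ⟨K, inferInstance, inferInstance, ⟨hKfin, hKS, hKN⟩, ⟨?_⟩⟩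
  refine
    { k := k
      g := g
      a := K.subtype
      inj := sK.inj
      exact := LinearMap.exact_subtype_ker_map g
      lift := ?_
      hom0 := ?_
      ext := ?_
      ext' := fun v => sK.extend (hWN 0) v }
  · intro φ
    obtain ⟨ψ, hψ⟩ := Module.projective_lifting_property g.rangeRestrict
      (φ.codRestrict W fun x => hg φ ⟨x, rfl⟩) g.surjective_rangeRestrict
    refine ⟨ψ, ?_⟩
    apply LinearMap.ext
    intro x
    exact congrArg Subtype.val (LinearMap.congr_fun hψ x)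
  · intro f hf
    let f' : C →ₗ[R] N := W.liftQ f (by
      rintro _ ⟨x, rfl⟩
      exact LinearMap.congr_fun hf x)
    have h1 := hCN.hom f'
    apply LinearMap.ext
    intro x
    exact LinearMap.congr_fun h1 (W.mkQ x)
  · intro u hu
    have h1 : ∃ u' : W →ₗ[R] N, u' ∘ₗ g.rangeRestrict = u := by
      have hker : LinearMap.ker g.rangeRestrict ≤ LinearMap.ker u := by
        intro x hx
        rw [LinearMap.ker_rangeRestrict] at hx
        exact LinearMap.congr_fun hu ⟨x, hx⟩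
      let e := (g.rangeRestrict).quotKerEquivOfSurjective g.surjective_rangeRestrict
      refine ⟨((LinearMap.ker g.rangeRestrict).liftQ u hker) ∘ₗ (e.symm : W →ₗ[R] _), ?_⟩
      apply LinearMap.ext
      intro x
      have h2 : e (Submodule.Quotient.mk x) = g.rangeRestrict x := rfl
      rw [LinearMap.comp_apply, LinearMap.comp_apply, ← h2]
      change ((LinearMap.ker g.rangeRestrict).liftQ u hker) (e.symm (e _)) = u x
      rw [LinearEquiv.symm_apply_apply]
      rfl
    obtain ⟨u', rfl⟩ := h1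
    obtain ⟨f, hf⟩ := sC.extend (hCN 1) u'
    refine ⟨f, ?_⟩
    rw [← hf]
    rfl

end cover

/-! ### The final pair -/

section final

variable {K : Type u} [Field K] [QPar K] {R : Type u} [Ring R] [Algebra K R]
  {P0 : Type u} [AddCommGroup P0] [Module R P0] [Module K P0] [IsScalarTower K R P0]
  {M : Type u} [AddCommGroup M] [Module R M] {S : Type u} [AddCommGroup S] [Module R S]

theorem finite_end [Module.Finite K R] [Module.Finite R P0] :
    Module.Finite K (Module.End R P0) := by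
  have h1 : Module.Finite K P0 := Module.Finite.trans R P0
  have h2 : Module.Finite K (Module.End K P0) := inferInstance
  let F : Module.End R P0 →ₗ[K] Module.End K P0 :=
    { toFun := fun f => f.restrictScalars K
      map_add' := fun _ _ => rfl
      map_smul' := fun _ _ => rfl }
  exact Module.Finite.of_injective F (LinearMap.restrictScalars_injective K)

theorem finite_endOp [Module.Finite K R] [Module.Finite R P0] :
    Module.Finite K (EndOp R P0) := by
  have h := finite_end (K := K) (R := R) (P0 := P0)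
  exact Module.Finite.equiv (MulOpposite.opLinearEquiv K)

omit [Module K P0] in
theorem Cover.finite {M' N : Type u} [AddCommGroup M'] [Module R M'] [AddCommGroup N]
    [Module R N] (c : Cover R P0 N M M') : Module.Finite (EndOp R P0) (HM R P0 M) := by
  have h1 : Module.Finite (EndOp R P0) (HM R P0 (Fin c.k → P0)) :=
    Module.Finite.equiv (HM.piEquiv c.k).symm
  exact Module.Finite.of_surjective _ c.ses.surj

variable [Module.Finite K R] [Module.Finite R P0] [Module.Projective R P0]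
  [Module.Finite R M] [Module.Projective R M]

include K in
/-- Step E: the Auslander-Reiten pair over the endomorphism ring. -/
theorem stepE_conclusion (hPS : ∀ f : P0 →ₗ[R] S, f = 0) (hMS : ∀ f : M →ₗ[R] S, f = 0)
    (hH : StepEHyp R P0 S M) (hH' : StepEHyp R P0 S P0)
    (k0 : ¬ ∃ (k : ℕ) (p : M →ₗ[R] (Fin k → P0)) (q : (Fin k → P0) →ₗ[R] M),
      q ∘ₗ p = LinearMap.id) :
    Module.Finite K (EndOp R P0) ∧ Module.Finite (EndOp R P0) (HM R P0 M) ∧
      OrthPos (EndOp R P0) (HM R P0 M) (HM R P0 M) ∧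
      OrthPos (EndOp R P0) (HM R P0 M) (EndOp R P0) ∧
      ¬ Module.Projective (EndOp R P0) (HM R P0 M) := by
  have hNoeth : IsNoetherianRing R := by
    have h1 : IsNoetherian K R := inferInstance
    exact isNoetherian_of_tower K h1
  have c1 := coverClass_stepE (R := R) hPS hH
  have c2 := coverClass_stepE (R := R) hPS hH'
  have m1 : StepE R S M M := ⟨inferInstance, orth_of_projective hMS, orthPos_of_projective⟩
  have m2 : StepE R S P0 M := ⟨inferInstance, orth_of_projective hMS, orthPos_of_projective⟩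
  refine ⟨finite_endOp, ?_, c1.orthPos m1, (c2.orthPos m2).congr_right HM.selfEquiv, ?_⟩
  · obtain ⟨M', _, _, _, ⟨c⟩⟩ := c1 M m1
    exact c.finite
  · intro hproj
    apply k0
    obtain ⟨M', _, _, _, ⟨c⟩⟩ := c1 M m1
    obtain ⟨i, hi⟩ := Module.projective_lifting_property (HM.map P0 c.g) LinearMap.id c.ses.surj
    have h1 : ∀ j : Fin c.k, ∃ f : M →ₗ[R] P0,
        HM.map P0 f = HM.map P0 (LinearMap.proj j : (Fin c.k → P0) →ₗ[R] P0) ∘ₗ i :=
      fun j => c2.full m2 _
    choose p hp using h1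
    refine ⟨c.k, LinearMap.pi p, c.g, ?_⟩
    have h2 : HM.map P0 (LinearMap.pi p) = i := by
      apply LinearMap.ext
      intro φ
      apply HM.ext'
      apply LinearMap.ext
      intro x
      funext j
      have h3 := LinearMap.congr_fun (congrArg HM.lin (LinearMap.congr_fun (hp j) φ)) x
      exact h3
    have h4 : HM.map P0 (c.g ∘ₗ LinearMap.pi p) = LinearMap.id := by
      rw [HM.map_comp, h2, hi]
    have h5 : c.g ∘ₗ LinearMap.pi p - LinearMap.id = 0 := by
      apply c1.eq_zero m1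
      intro φ
      rw [LinearMap.sub_comp, LinearMap.id_comp, sub_eq_zero]
      exact congrArg HM.lin (LinearMap.congr_fun h4 (HM.mk φ))
    exact sub_eq_zero.1 h5

end final

end Vale.Agent.P195Q.Van
end
end

section

section

/-!
# P195: from line windows to the six windows
-/

namespace Vale.Agent.P195Q.Van

universe u

variable {K : Type u} [Field K] [QPar K]

/-- Short exactness of `A → B → C` on the subspaces of weight `w` and order `e`. -/
structure LEx (A B C : GM K) (f : A.X →ₗ[K] B.X) (g : B.X →ₗ[K] C.X) (w e : ℤ) : Prop where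
  inj : ∀ z ∈ A.F w e, f z = 0 → z = 0
  exact : ∀ z ∈ B.F w e, g z = 0 → ∃ y ∈ A.F w e, f y = z
  surj : ∀ z ∈ C.F w e, ∃ y ∈ B.F w e, g y = z

/-- F4: `A(1,e) = A(1,-2) + x₀ A(0,e) + x₁ A(0,e)`. -/
def F4 (A : GM K) (e : ℤ) : Prop :=
  ∀ z ∈ A.F 1 e, ∃ c ∈ A.F 1 (-2), ∃ p ∈ A.F 0 e, ∃ q ∈ A.F 0 e,
    z = c + A.x 0 p + A.x 1 q

theorem F4.quot {A B : GM K} {e : ℤ} (h : F4 A e) {g : A.X →ₗ[K] B.X} (hg : IsG A B g)
    (hs : ∀ z ∈ B.F 1 e, ∃ y ∈ A.F 1 e, g y = z) : F4 B e := by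
  intro z hz
  obtain ⟨y, hy, rfl⟩ := hs z hz
  obtain ⟨c, hc, p, hp, q, hq, rfl⟩ := h y hy
  exact ⟨g c, hg.F _ _ _ hc, g p, hg.F _ _ _ hp, g q, hg.F _ _ _ hq, by
    rw [map_add, map_add, hg.x, hg.x]⟩

theorem LEx.line {A B C : GM K} {f : A.X →ₗ[K] B.X} {g : B.X →ₗ[K] C.X} {w e : ℤ}
    (h : LEx A B C f g w e) :
    (∀ z ∈ lineW A w e, f.prodMap f z = 0 → z = 0) ∧
    (∀ z ∈ lineW B w e, g.prodMap g z = 0 → ∃ y ∈ lineW A w e, f.prodMap f y = z) ∧
    (∀ z ∈ lineW C w e, ∃ y ∈ lineW B w e, g.prodMap g y = z) := by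
  refine ⟨?_, ?_, ?_⟩
  · rintro ⟨z1, z2⟩ ⟨h1, h2⟩ h0
    have h2' : z2 = 0 := h2
    subst h2'
    have := congrArg Prod.fst h0
    exact Prod.ext (h.inj z1 h1 this) rfl
  · rintro ⟨z1, z2⟩ ⟨h1, h2⟩ h0
    have h2' : z2 = 0 := h2
    subst h2'
    have := congrArg Prod.fst h0
    obtain ⟨y, hy, rfl⟩ := h.exact z1 h1 this
    exact ⟨(y, 0), ⟨hy, rfl⟩, by simp⟩
  · rintro ⟨z1, z2⟩ ⟨h1, h2⟩
    have h2' : z2 = 0 := h2
    subst h2'
    obtain ⟨y, hy, rfl⟩ := h.surj z1 h1
    exact ⟨(y, 0), ⟨hy, rfl⟩, by simp⟩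

theorem GM.mono' (A : GM K) {w e e' : ℤ} (h : e ≤ e') {z : A.X} (hz : z ∈ A.F w e) :
    z ∈ A.F w e' := by
  obtain ⟨n, hn⟩ := Int.le.dest h
  subst hn
  induction n with
  | zero => simpa using hz
  | succ n ih =>
    have := A.mono w (e + n) z (ih (by omega))
    convert this using 2
    push_cast; ring

theorem LEx.gwin {A B C : GM K} {f : A.X →ₗ[K] B.X} {g : B.X →ₗ[K] C.X} (hf : IsG A B f)
    (hg : IsG B C g) (hgf : ∀ z, g (f z) = 0) (b : ℤ)
    (h0 : LEx A B C f g 0 (-b)) (h1 : LEx A B C f g 1 (-b)) (h2 : LEx A B C f g 1 (-2))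
    (hb : b ≤ 2) (h4 : F4 A (-b)) :
    (∀ z ∈ gW A b, f.prodMap f z = 0 → z = 0) ∧
    (∀ z ∈ gW B b, g.prodMap g z = 0 → ∃ y ∈ gW A b, f.prodMap f y = z) ∧
    (∀ z ∈ gW C b, ∃ y ∈ gW B b, g.prodMap g y = z) := by
  refine ⟨?_, ?_, ?_⟩
  · rintro ⟨z1, z2⟩ ⟨k1, k2, -⟩ hz
    exact Prod.ext (h0.inj z1 k1 (congrArg Prod.fst hz)) (h0.inj z2 k2 (congrArg Prod.snd hz))
  · rintro ⟨z1, z2⟩ ⟨k1, k2, k3⟩ hz
    obtain ⟨y1, hy1, e1⟩ := h0.exact z1 k1 (congrArg Prod.fst hz)
    obtain ⟨y2, hy2, e2⟩ := h0.exact z2 k2 (congrArg Prod.snd hz)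
    simp only at k1 k2 k3 e1 e2
    subst e1 e2
    have hx1 : A.x 1 y1 - A.x 0 y2 ∈ A.F 1 (-b) :=
      Submodule.sub_mem _ (by simpa using A.xF 1 0 (-b) y1 hy1) (by simpa using A.xF 0 0 (-b) y2 hy2)
    have hfx : f (A.x 1 y1 - A.x 0 y2) = B.x 1 (f y1) - B.x 0 (f y2) := by
      rw [map_sub, hf.x, hf.x]
    rw [← hfx] at k3
    obtain ⟨y', hy', e'⟩ := h2.exact _ k3 (hgf _)
    have : y' - (A.x 1 y1 - A.x 0 y2) = 0 :=
      h1.inj _ (Submodule.sub_mem _ (A.mono' (by omega) hy') hx1) (by rw [map_sub, e', sub_self])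
    refine ⟨(y1, y2), ⟨hy1, hy2, ?_⟩, rfl⟩
    rw [← sub_eq_zero.1 this]; exact hy'
  · rintro ⟨z1, z2⟩ ⟨k1, k2, k3⟩
    obtain ⟨y1, hy1, e1⟩ := h0.surj z1 k1
    obtain ⟨y2, hy2, e2⟩ := h0.surj z2 k2
    simp only at k1 k2 k3
    subst e1 e2
    have hr : B.x 1 y1 - B.x 0 y2 ∈ B.F 1 (-b) :=
      Submodule.sub_mem _ (by simpa using B.xF 1 0 (-b) y1 hy1) (by simpa using B.xF 0 0 (-b) y2 hy2)
    have hgr : g (B.x 1 y1 - B.x 0 y2) = C.x 1 (g y1) - C.x 0 (g y2) := by
      rw [map_sub, hg.x, hg.x]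
    rw [← hgr] at k3
    obtain ⟨r', hr', er⟩ := h2.surj _ k3
    obtain ⟨a, ha, ea⟩ := h1.exact (B.x 1 y1 - B.x 0 y2 - r')
      (Submodule.sub_mem _ hr (B.mono' (by omega) hr')) (by rw [map_sub, er, sub_self])
    obtain ⟨c, hc, p, hp, q, hq, rfl⟩ := h4 a ha
    refine ⟨(y1 - f q, y2 + f p), ⟨?_, ?_, ?_⟩, ?_⟩
    · exact Submodule.sub_mem _ hy1 (hf.F _ _ _ hq)
    · exact Submodule.add_mem _ hy2 (hf.F _ _ _ hp)
    · have : B.x 1 (y1 - f q) - B.x 0 (y2 + f p) = r' + f c := by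
        rw [map_sub, map_add, ← hf.x, ← hf.x]
        rw [map_add, map_add, eq_sub_iff_add_eq, eq_sub_iff_add_eq] at ea
        rw [← ea]; abel
      show B.x 1 (y1 - f q) - B.x 0 (y2 + f p) ∈ _
      rw [this]
      exact Submodule.add_mem _ hr' (hf.F _ _ _ hc)
    · simp [hgf]

/-- Exactness on the six windows from exactness on the line windows. -/
theorem gses_of_line {A B C : GM K} {f : A.X →ₗ[K] B.X} {g : B.X →ₗ[K] C.X} (hf : IsG A B f)
    (hg : IsG B C g) (hgf : ∀ z, g (f z) = 0)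
    (h0 : ∀ b : ℤ, 0 ≤ b → b ≤ 2 → LEx A B C f g 0 (-b))
    (h1 : ∀ b : ℤ, 0 ≤ b → b ≤ 2 → LEx A B C f g 1 (-b))
    (h4 : ∀ b : ℤ, 0 ≤ b → b ≤ 1 → F4 A (-b)) : GSES A B C f g := by
  have hl := fun b hb0 hb2 => (h0 b hb0 hb2).line
  have hg' := fun b (hb0 : 0 ≤ b) (hb1 : b ≤ 1) =>
    LEx.gwin hf hg hgf b (h0 b hb0 (by omega)) (h1 b hb0 (by omega)) (h1 2 (by norm_num) le_rfl)
      (by omega) (h4 b hb0 hb1)
  have h6 := (h1 2 (by norm_num) le_rfl).line
  refine ⟨hf, hg, hgf, ?_, ?_, ?_⟩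
  · intro i
    fin_cases i
    · exact (hl 0 le_rfl (by norm_num)).1
    · exact (hl 1 (by norm_num) (by norm_num)).1
    · exact (hl 2 (by norm_num) (by norm_num)).1
    · exact (hg' 0 le_rfl (by norm_num)).1
    · exact (hg' 1 (by norm_num) le_rfl).1
    · exact h6.1
  · intro i
    fin_cases i
    · exact (hl 0 le_rfl (by norm_num)).2.1
    · exact (hl 1 (by norm_num) (by norm_num)).2.1
    · exact (hl 2 (by norm_num) (by norm_num)).2.1
    · exact (hg' 0 le_rfl (by norm_num)).2.1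
    · exact (hg' 1 (by norm_num) le_rfl).2.1
    · exact h6.2.1
  · intro i
    fin_cases i
    · exact (hl 0 le_rfl (by norm_num)).2.2
    · exact (hl 1 (by norm_num) (by norm_num)).2.2
    · exact (hl 2 (by norm_num) (by norm_num)).2.2
    · exact (hg' 0 le_rfl (by norm_num)).2.2
    · exact (hg' 1 (by norm_num) le_rfl).2.2
    · exact h6.2.2

end Vale.Agent.P195Q.Van
end
end

section

section

/-!
# P195: the Koszul sequences s1, s2, s3 on windows
-/

namespace Vale.Agent.P195Q.Van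

open Vale.Agent.P195Q.Weyl

universe u

variable {K : Type u} [Field K] [QPar K]

variable (K) in
/-- the kernel of `ev` -/
noncomputable abbrev kerEv : Submodule K (D K) := LinearMap.ker ev

theorem mem_kerEv {z : D K} : z ∈ kerEv K ↔ ev z = 0 := LinearMap.mem_ker

variable (K) in
/-- the image of `O(n+1,1)² → O(n,2)`, the kernel of `O(n,2) → C_n`. -/
@[reducible] noncomputable def II (n : ℤ) : GM K where
  X := kerEv K
  x i := (Lx i).restrict (p := kerEv K) (q := kerEv K) (fun z hz => by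
    rw [mem_kerEv] at hz ⊢; rw [ev_Lx, hz, mul_zero])
  d i := (Ld i).restrict (p := kerEv K) (q := kerEv K) (fun z hz => by
    rw [mem_kerEv] at hz ⊢; rw [ev_Ld, hz, map_zero])
  F w e := (V K (n + w) (2 + e)).comap (kerEv K).subtype
  xx i j z := Subtype.ext (Lx_comm i j _)
  dd i j z := Subtype.ext (Ld_comm i j _)
  dx i j z := Subtype.ext ((Ld_Lx i j z.1).trans (by
    rw [Submodule.coe_add]
    split_ifs <;> rfl))
  xF i w e z hz := cV (Lx_mem (show z.1 ∈ V K (n + w) (2 + e) from hz) i) (by ring) (by ring)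
  dF i w e z hz := cV (Ld_mem (show z.1 ∈ V K (n + w) (2 + e) from hz) i) (by ring) (by ring)
  mono w e z hz := V_mono (by omega) (show z.1 ∈ V K (n + w) (2 + e) from hz)

theorem mem_CF {n w e : ℤ} {z : MvPolynomial (Fin 2) K} :
    z ∈ CF K n w e ↔ z ∈ S K (n + w) ∧ (z = 0 ∨ -2 ≤ e) := by
  unfold CF
  split_ifs with h
  · simp [h]
  · rw [Submodule.mem_bot]
    constructor
    · rintro rfl; exact ⟨Submodule.zero_mem _, Or.inl rfl⟩
    · rintro ⟨-, h1 | h1⟩
      · exact h1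
      · exact absurd h1 h

/-! ### the maps -/

/-- `g ↦ (g ∂₁, - g ∂₀)` -/
noncomputable def kk : D K →ₗ[K] (D K × D K) := (Rd 1).prod (-(Rd 0))

@[simp] theorem kk_apply (g : D K) : kk g = (Rd 1 g, - Rd 0 g) := rfl

/-- `h ↦ h₀ ∂₀ + h₁ ∂₁` -/
noncomputable def nu0 : (D K × D K) →ₗ[K] D K := (Rd 0).coprod (Rd 1)

@[simp] theorem nu0_apply (h : D K × D K) : nu0 h = Rd 0 h.1 + Rd 1 h.2 := rfl

theorem ev_nu0 (h : D K × D K) : ev (nu0 h) = 0 := by
  rw [nu0_apply, map_add, ev_Rd, ev_Rd, add_zero]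

/-- `h ↦ h₀ ∂₀ + h₁ ∂₁` -/
noncomputable def nu : (D K × D K) →ₗ[K] kerEv K := nu0.codRestrict (kerEv K) ev_nu0

theorem nu_coe (h : D K × D K) : (nu h : D K) = Rd 0 h.1 + Rd 1 h.2 := rfl

theorem nu_kk (g : D K) : nu (kk g) = 0 := by
  apply Subtype.ext
  rw [nu_coe]
  simp [Rd_comm 0 1]

/-- `O(a,c) → O(a+1,c)²` -/
theorem isG_jj (a a' c : ℤ) (h : a' = a + 1) :
    IsG (OO K a c) ((OO K a' c).prod (OO K a' c)) jj := by
  subst h
  refine ⟨fun i z => jj_Lx i z, fun i z => jj_Ld i z, fun w e z hz => ?_⟩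
  exact ⟨cV (Rx_mem hz 1) (by ring) (by ring), Submodule.neg_mem _ (cV (Rx_mem hz 0) (by ring) (by ring))⟩

/-- `O(a,c)² → O(a+1,c)` -/
theorem isG_mu (a a' c : ℤ) (h : a' = a + 1) :
    IsG ((OO K a c).prod (OO K a c)) (OO K a' c) mu := by
  subst h
  refine ⟨fun i z => mu_Lx2 i z, fun i z => mu_Ld2 i z, fun w e z hz => ?_⟩
  exact Submodule.add_mem _ (cV (Rx_mem hz.1 0) (by ring) (by ring)) (cV (Rx_mem hz.2 1) (by ring) (by ring))

/-- `T_6 → G_b` -/
theorem isG_jjG (b : ℤ) : IsG (OO K (-1) 2) (GG K b) jj :=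
  ⟨fun i z => jj_Lx i z, fun i z => jj_Ld i z, fun _ _ _ hz => jj_mem (cV hz (by ring) (by ring))⟩

/-- `G_b → O(1,b)` -/
theorem isG_muG (b : ℤ) : IsG (GG K b) (OO K 1 b) mu :=
  ⟨fun i z => mu_Lx2 i z, fun i z => mu_Ld2 i z, fun _ _ _ hz => cV (mem_GG.1 hz).2 (by ring) (by ring)⟩

/-- `O(a,c) → O(a-1,c+1)²` -/
theorem isG_kk (a a' c c' : ℤ) (h : a = a' + 1) (hc : c' = c + 1) :
    IsG (OO K a c) ((OO K a' c').prod (OO K a' c')) kk := by
  subst h hc
  refine ⟨fun i z => ?_, fun i z => ?_, fun w e z hz => ?_⟩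
  · show kk (Lx i z) = (Lx i (Rd 1 z), Lx i (- Rd 0 z))
    rw [kk_apply, map_neg, Lx_Rd, Lx_Rd]
  · show kk (Ld i z) = (Ld i (Rd 1 z), Ld i (- Rd 0 z))
    rw [kk_apply, map_neg, Ld_Rd, Ld_Rd]
  · exact ⟨cV (Rd_mem hz 1) (by ring) (by ring), Submodule.neg_mem _ (cV (Rd_mem hz 0) (by ring) (by ring))⟩

/-- `O(n+1,1)² → I_n` -/
theorem isG_nu (n n' : ℤ) (h : n' = n + 1) :
    IsG ((OO K n' 1).prod (OO K n' 1)) (II K n) nu := by
  subst h
  refine ⟨fun i z => Subtype.ext ?_, fun i z => Subtype.ext ?_, fun w e z hz => ?_⟩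
  · show Rd 0 (Lx i z.1) + Rd 1 (Lx i z.2) = Lx i (Rd 0 z.1 + Rd 1 z.2)
    rw [map_add, Lx_Rd, Lx_Rd]
  · show Rd 0 (Ld i z.1) + Rd 1 (Ld i z.2) = Ld i (Rd 0 z.1 + Rd 1 z.2)
    rw [map_add, Ld_Rd, Ld_Rd]
  · have h1 : z.1 ∈ V K (n + 1 + w) (1 + e) := hz.1
    have h2 : z.2 ∈ V K (n + 1 + w) (1 + e) := hz.2
    have h3 : Rd 0 z.1 + Rd 1 z.2 ∈ V K (n + w) (2 + e) := Submodule.add_mem _
      (cV (Rd_mem h1 0) (by ring) (by ring)) (cV (Rd_mem h2 1) (by ring) (by ring))
    exact h3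

variable (K) in
/-- the inclusion of the kernel of `ev` -/
noncomputable def inc : kerEv K →ₗ[K] D K := (kerEv K).subtype

/-- `I_n → O(n,2)` -/
theorem isG_inc (n : ℤ) : IsG (II K n) (OO K n 2) (inc K) :=
  ⟨fun _ _ => rfl, fun _ _ => rfl, fun _ _ _ hz => hz⟩

theorem ev_inc (z : kerEv K) : ev (inc K z) = 0 := z.2

/-- `O(n,2) → C_n` -/
theorem isG_ev (n : ℤ) : IsG (OO K n 2) (CC K n) ev := by
  refine ⟨fun i z => ev_Lx i z, fun i z => ev_Ld i z, fun w e z hz => mem_CF.2 ⟨ev_mem hz, ?_⟩⟩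
  by_cases h : -2 ≤ e
  · exact Or.inr h
  · left
    have hz' : z ∈ V K (n + w) (2 + e) := hz
    rw [V_eq_bot (by omega), Submodule.mem_bot] at hz'
    rw [hz', map_zero]

/-! ### exactness on lines -/

theorem lex_s1 {b w : ℤ} (hb : b ≤ 2) (hw : 0 ≤ w) (e : ℤ) :
    LEx (OO K (-1) 2) (GG K b) (OO K 1 b) jj mu w e where
  inj z _ h := jj_injective (by rw [h, map_zero])
  exact z hz h := by
    obtain ⟨g, hg, h'⟩ := exists_jj (mem_GG.1 hz).1.2 h
    exact ⟨g, cV hg (by ring) (by ring), h'.symm⟩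
  surj z hz := GG_surj hb hw (cV hz (by ring) (by ring))

theorem lex_s2 {a a' a'' c w : ℤ} (h1 : a' = a + 1) (h2 : a'' = a + 2) (hw : 0 ≤ a + 1 + w)
    (e : ℤ) :
    LEx (OO K a c) ((OO K a' c).prod (OO K a' c)) (OO K a'' c) jj mu w e := by
  subst h1 h2
  refine ⟨fun z _ h => jj_injective (by rw [h, map_zero]), fun z hz h => ?_, fun z hz => ?_⟩
  · obtain ⟨g, hg, h'⟩ := exists_jj (show z.2 ∈ V K (a + 1 + w) (c + e) from hz.2) h
    exact ⟨g, show g ∈ V K (a + w) (c + e) from cV hg (by ring) (by ring), h'.symm⟩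
  · have hz' : z ∈ V K (a + 2 + w) (c + e) := hz
    obtain ⟨p, hp, q, hq, h⟩ := Rx_surj (w := a + 1 + w) (d := c + e) hw (cV hz' (by ring) (by ring))
    exact ⟨(p, q), ⟨hp, hq⟩, h.symm⟩

theorem lex_s3 {a n n' : ℤ} (h1 : a = n + 2) (h2 : n' = n + 1) (w e : ℤ) :
    LEx (OO K a 0) ((OO K n' 1).prod (OO K n' 1)) (II K n) kk nu w e := by
  subst h1 h2
  refine ⟨fun z _ h => Rd_inj 1 ?_, fun z hz h => ?_, fun z hz => ?_⟩
  · rw [map_zero]; exact congrArg Prod.fst h
  · have h2 : z.2 ∈ V K (n + 1 + w) (1 + e) := hz.2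
    have h3 : Rd 0 z.1 + Rd 1 z.2 = 0 := congrArg Subtype.val h
    obtain ⟨g, hg, e1, e2⟩ := Rd_kos (w := n + 2 + w) (d := e) (p := z.2) (q := -z.1)
      (cV h2 (by ring) (by ring)) (by
        rw [map_neg]
        exact (neg_eq_of_add_eq_zero_right h3).symm)
    refine ⟨-g, Submodule.neg_mem _ (show g ∈ V K (n + 2 + w) (0 + e) from cV hg (by ring) (by ring)), ?_⟩
    rw [kk_apply, map_neg, map_neg, neg_neg, ← e1, ← e2, neg_neg]
  · obtain ⟨p, hp, q, hq, h⟩ := ev_ker (show z.1 ∈ V K (n + w) (2 + e) from hz)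
      (mem_kerEv.1 z.2)
    exact ⟨(p, q), ⟨cV hp (by ring) (by ring), cV hq (by ring) (by ring)⟩, Subtype.ext h.symm⟩

theorem lex_s4 (n w e : ℤ) : LEx (II K n) (OO K n 2) (CC K n) (inc K) ev w e := by
  refine ⟨fun z _ h => Subtype.ext h, fun z hz h => ⟨⟨z, mem_kerEv.2 h⟩, hz, rfl⟩,
    fun z hz => ?_⟩
  obtain ⟨h1, h2 | h2⟩ := mem_CF.1 hz
  · exact ⟨0, Submodule.zero_mem _, by rw [h2, map_zero]⟩
  · exact ev_surj (by omega) h1

/-! ### F4 -/

theorem F4_O {a : ℤ} (ha : 0 ≤ a) (b e : ℤ) : F4 (OO K a b) e := by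
  intro z hz
  obtain ⟨p, hp, q, hq, rfl⟩ := Lx_surj (w := a) (d := b + e) ha hz
  exact ⟨0, Submodule.zero_mem _, p, cV hp (by ring) (by ring), q, cV hq (by ring) (by ring), by rw [zero_add]⟩

theorem F4_O_tau {a : ℤ} (ha : -1 ≤ a) (b e : ℤ) : F4 (OO K a b).tau e := by
  intro z hz
  obtain ⟨p, hp, q, hq, rfl⟩ := Lx_surj (w := a + 1) (d := b + e) (by omega) (cV hz (by ring) (by ring))
  exact ⟨0, Submodule.zero_mem _, p, cV hp (by ring) (by ring), q, cV hq (by ring) (by ring), by rw [zero_add]⟩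

theorem F4_T6 (e : ℤ) : F4 (OO K (-1) 2) e := by
  intro z hz
  obtain ⟨c, hc, p, hp, q, hq, h⟩ := T6_F4 (e := 2 + e) (f := z) (cV hz (by ring) (by ring))
  exact ⟨c, cV hc (by ring) (by ring), p, cV hp (by ring) (by ring), q, cV hq (by ring) (by ring), h⟩

theorem F4.prod {A B : GM K} {e : ℤ} (hA : F4 A e) (hB : F4 B e) : F4 (A.prod B) e := by
  rintro ⟨z1, z2⟩ ⟨h1, h2⟩
  obtain ⟨c, hc, p, hp, q, hq, e1⟩ := hA z1 h1
  obtain ⟨c', hc', p', hp', q', hq', e2⟩ := hB z2 h2
  exact ⟨(c, c'), ⟨hc, hc'⟩, (p, p'), ⟨hp, hp'⟩, (q, q'), ⟨hq, hq'⟩, Prod.ext e1 e2⟩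

theorem F4_I {n : ℤ} (hn : -1 ≤ n) (e : ℤ) : F4 (II K n) e :=
  F4.quot ((F4_O (by omega) _ _).prod (F4_O (by omega) _ _)) (isG_nu n (n + 1) rfl)
    (lex_s3 rfl rfl 1 e).surj

theorem F4_I_tau {n : ℤ} (hn : -2 ≤ n) (e : ℤ) : F4 (II K n).tau e := by
  have h1 : F4 (OO K (n + 1) 1).tau e := F4_O_tau (by omega) _ _
  have h2 : F4 ((OO K (n + 1) 1).tau.prod (OO K (n + 1) 1).tau) e := h1.prod h1
  have h3 : LEx (OO K (n + 2) 0) ((OO K (n + 1) 1).prod (OO K (n + 1) 1)) (II K n)
    kk nu (1 + 1) e := lex_s3 rfl rfl _ _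
  have h4 : IsG ((OO K (n + 1) 1).tau.prod (OO K (n + 1) 1).tau) (II K n).tau nu :=
    ⟨(isG_nu n (n + 1) rfl).x, (isG_nu n (n + 1) rfl).d, fun w e z hz =>
      (isG_nu n (n + 1) rfl).F (w + 1) e z hz⟩
  exact F4.quot h2 h4 h3.surj

/-! ### exactness on windows -/

theorem LEx.tau {A B C : GM K} {f : A.X →ₗ[K] B.X} {g : B.X →ₗ[K] C.X} {w e : ℤ}
    (h : LEx A B C f g (w + 1) e) : LEx A.tau B.tau C.tau f g w e := ⟨h.inj, h.exact, h.surj⟩

/-- s1: `0 → T_6 → G_b → O(1,b) → 0` -/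
theorem gses_s1 {b : ℤ} (hb : b ≤ 2) :
    GSES (OO K (-1) 2) (GG K b) (OO K 1 b) jj mu :=
  gses_of_line (isG_jjG b) (isG_muG b) mu_jj (fun b _ _ => lex_s1 hb (by norm_num) _)
    (fun b _ _ => lex_s1 hb (by norm_num) _) (fun b _ _ => F4_T6 _)

theorem gses_s1_tau {b : ℤ} (hb : b ≤ 2) :
    GSES (OO K (-1) 2).tau (GG K b).tau (OO K 1 b).tau jj mu :=
  gses_of_line (isG_jjG b).tau (isG_muG b).tau mu_jj
    (fun b _ _ => (lex_s1 hb (by norm_num) _).tau)
    (fun b _ _ => (lex_s1 hb (by norm_num) _).tau) (fun b _ _ => F4_O_tau (by norm_num) _ _)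

/-- s2: `0 → O(a,c) → O(a+1,c)² → O(a+2,c) → 0` -/
theorem gses_s2 {a a' a'' c : ℤ} (h1 : a' = a + 1) (h2 : a'' = a + 2) (ha : 0 ≤ a) :
    GSES (OO K a c) ((OO K a' c).prod (OO K a' c)) (OO K a'' c) jj mu :=
  gses_of_line (isG_jj a a' c h1) (isG_mu a' a'' c (by omega)) mu_jj
    (fun b _ _ => lex_s2 h1 h2 (by omega) _)
    (fun b _ _ => lex_s2 h1 h2 (by omega) _) (fun b _ _ => F4_O ha _ _)

theorem gses_s2_tau {a a' a'' c : ℤ} (h1 : a' = a + 1) (h2 : a'' = a + 2) (ha : -1 ≤ a) :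
    GSES (OO K a c).tau ((OO K a' c).prod (OO K a' c)).tau (OO K a'' c).tau jj mu :=
  gses_of_line (isG_jj a a' c h1).tau (isG_mu a' a'' c (by omega)).tau mu_jj
    (fun b _ _ => (lex_s2 h1 h2 (by omega) _).tau)
    (fun b _ _ => (lex_s2 h1 h2 (by omega) _).tau) (fun b _ _ => F4_O_tau ha _ _)

/-- s1': `0 → T_6 → O(0,2)² → O(1,2) → 0` -/
theorem gses_s1' : GSES (OO K (-1) 2) ((OO K 0 2).prod (OO K 0 2)) (OO K 1 2) jj mu :=
  gses_of_line (isG_jj (-1) 0 2 rfl) (isG_mu 0 1 2 rfl) mu_jj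
    (fun b _ _ => lex_s2 rfl rfl (by norm_num) _)
    (fun b _ _ => lex_s2 rfl rfl (by norm_num) _) (fun b _ _ => F4_T6 _)

/-- s3: `0 → O(n+2,0) → O(n+1,1)² → I_n → 0` -/
theorem gses_s3 {a n n' : ℤ} (h1 : a = n + 2) (h2 : n' = n + 1) (hn : -2 ≤ n) :
    GSES (OO K a 0) ((OO K n' 1).prod (OO K n' 1)) (II K n) kk nu :=
  gses_of_line (isG_kk a n' 0 1 (by omega) rfl) (isG_nu n n' h2) nu_kk
    (fun b _ _ => lex_s3 h1 h2 _ _)
    (fun b _ _ => lex_s3 h1 h2 _ _) (fun b _ _ => F4_O (by omega) _ _)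

theorem gses_s3_tau {a n n' : ℤ} (h1 : a = n + 2) (h2 : n' = n + 1) (hn : -3 ≤ n) :
    GSES (OO K a 0).tau ((OO K n' 1).prod (OO K n' 1)).tau (II K n).tau kk nu :=
  gses_of_line (isG_kk a n' 0 1 (by omega) rfl).tau (isG_nu n n' h2).tau nu_kk
    (fun b _ _ => (lex_s3 h1 h2 _ _).tau)
    (fun b _ _ => (lex_s3 h1 h2 _ _).tau) (fun b _ _ => F4_O_tau (by omega) _ _)

/-- s4: `0 → I_n → O(n,2) → C_n → 0` -/
theorem gses_s4 {n : ℤ} (hn : -1 ≤ n) :
    GSES (II K n) (OO K n 2) (CC K n) (inc K) ev :=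
  gses_of_line (isG_inc n) (isG_ev n) ev_inc
    (fun _ _ _ => lex_s4 _ _ _)
    (fun _ _ _ => lex_s4 _ _ _) (fun _ _ _ => F4_I hn _)

theorem gses_s4_tau {n : ℤ} (hn : -2 ≤ n) :
    GSES (II K n).tau (OO K n 2).tau (CC K n).tau (inc K) ev :=
  gses_of_line (isG_inc n).tau (isG_ev n).tau ev_inc
    (fun _ _ _ => (lex_s4 _ _ _).tau)
    (fun _ _ _ => (lex_s4 _ _ _).tau) (fun _ _ _ => F4_I_tau hn _)

end Vale.Agent.P195Q.Van
end
end

section

section

/-!
# P195: the hypothesis of step E from the structure of the quotient algebra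

Modules `C` without maps from `P0` are representations `eK C → eL C` of a two vertex quiver.
-/

open Function

namespace Vale.Agent.P195Q.Van

universe u

/-- The structure of the modules `C` with `Hom (P0, C) = 0`, and the modules `S`, `Q`, `T`. -/
structure TwoData (K : Type u) [Field K] [QPar K] (R : Type u) [Ring R] [Algebra K R]
    (P0 S Q T : Type u) [AddCommGroup P0] [Module R P0] [AddCommGroup S] [Module R S]
    [AddCommGroup Q] [Module R Q] [AddCommGroup T] [Module R T] where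
  eK : R
  eL : R
  θ : R
  kl : eK * eL = 0
  lk : eL * eK = 0
  ll : eL * eL = eL
  lθ : eL * θ = θ
  θk : θ * eK = θ
  one : ∀ (C : Type u) [AddCommGroup C] [Module R C], (∀ f : P0 →ₗ[R] C, f = 0) →
    ∀ c : C, eK • c + eL • c = c
  act : ∀ r : R, ∃ x y z : K, ∀ (C : Type u) [AddCommGroup C] [Module R C],
    (∀ f : P0 →ₗ[R] C, f = 0) → ∀ c : C,
      r • c = algebraMap K R x • (eK • c) + algebraMap K R y • (eL • c) +
        algebraMap K R z • (θ • c)
  /-- the inclusion of `S` in `Q` -/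
  ι : S →ₗ[R] Q
  /-- the projection of `Q` to `T` -/
  π : Q →ₗ[R] T
  ses : SES ι π
  hPS : ∀ f : P0 →ₗ[R] S, f = 0
  hPQ : ∀ f : P0 →ₗ[R] Q, f = 0
  hPT : ∀ f : P0 →ₗ[R] T, f = 0
  q : Q
  s : S
  hq : eK • q = q
  hs : eL • s = s
  ιs : ι s = θ • q
  s_ne : s ≠ 0
  t_ne : π q ≠ 0
  spanS : ∀ m : S, ∃ a : K, m = algebraMap K R a • s
  spanT : ∀ m : T, ∃ a : K, m = algebraMap K R a • π q

section

variable {K : Type u} [Field K] [QPar K] {R : Type u} [Ring R] [Algebra K R]
  {P0 S Q T : Type u} [AddCommGroup P0] [Module R P0] [AddCommGroup S] [Module R S]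
  [AddCommGroup Q] [Module R Q] [AddCommGroup T] [Module R T]

theorem TwoData.θl (D : TwoData K R P0 S Q T) : D.θ * D.eL = 0 := by
  rw [← D.θk, mul_assoc, D.kl, mul_zero]

theorem TwoData.θθ (D : TwoData K R P0 S Q T) : D.θ * D.θ = 0 := by
  calc D.θ * D.θ = D.θ * (D.eL * D.θ) := by rw [D.lθ]
    _ = 0 := by rw [← mul_assoc, D.θl, zero_mul]

theorem TwoData.kθ (D : TwoData K R P0 S Q T) : D.eK * D.θ = 0 := by
  rw [← D.lθ, ← mul_assoc, D.kl, zero_mul]

theorem alg_smul_comm {C : Type u} [AddCommGroup C] [Module R C] (a : K) (r : R) (c : C) :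
    r • (algebraMap K R a • c) = algebraMap K R a • (r • c) := by
  rw [← mul_smul, ← mul_smul, Algebra.commutes]

theorem alg_smul_eq_zero {C : Type u} [AddCommGroup C] [Module R C] {a : K} {c : C}
    (h : algebraMap K R a • c = 0) (hc : c ≠ 0) : a = 0 := by
  by_contra ha
  apply hc
  have h1 : algebraMap K R a⁻¹ • (algebraMap K R a • c) = 0 := by rw [h, smul_zero]
  rwa [← mul_smul, ← map_mul, inv_mul_cancel₀ ha, map_one, one_smul] at h1

namespace TwoData

variable (D : TwoData K R P0 S Q T)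

theorem θq_ne : D.θ • D.q ≠ 0 := by
  rw [← D.ιs]
  intro h
  exact D.s_ne (D.ses.inj (h.trans (map_zero D.ι).symm))

theorem spanQ (m : Q) : ∃ a b : K, m = algebraMap K R a • D.q + algebraMap K R b • (D.θ • D.q) := by
  obtain ⟨a, ha⟩ := D.spanT (D.π m)
  have h1 : D.π (m - algebraMap K R a • D.q) = 0 := by
    rw [map_sub, map_smul, ha, sub_self]
  obtain ⟨n, hn⟩ := (D.ses.exact _).1 h1
  obtain ⟨b, hb⟩ := D.spanS n
  refine ⟨a, b, ?_⟩
  rw [← D.ιs, ← map_smul, ← hb, hn]
  abel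

theorem indepQ {a b : K} (h : algebraMap K R a • D.q + algebraMap K R b • (D.θ • D.q) = 0) :
    a = 0 ∧ b = 0 := by
  have h1 : algebraMap K R a • (D.θ • D.q) = 0 := by
    have h2 := congrArg (fun m => D.θ • m) h
    simp only [smul_add, smul_zero] at h2
    rw [alg_smul_comm, alg_smul_comm, ← mul_smul D.θ D.θ, D.θθ, zero_smul, smul_zero,
      add_zero] at h2
    exact h2
  have ha := alg_smul_eq_zero h1 D.θq_ne
  subst ha
  rw [map_zero, zero_smul, zero_add] at h
  exact ⟨rfl, alg_smul_eq_zero h D.θq_ne⟩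

end TwoData

/-- **The hypothesis of step E.** -/
theorem TwoData.stepEHyp (D : TwoData K R P0 S Q T) [Module.Finite K R] {N : Type u}
    [AddCommGroup N] [Module R N] (hQN : Orth R Q N) (hQS : Orth R Q S) :
    StepEHyp R P0 S N := by
  intro C _ _ hfin hPC hCS hC1
  -- the K-structure
  let modK : Module K C := Module.compHom C (algebraMap K R)
  have hK : ∀ (a : K) (c : C), a • c = algebraMap K R a • c := fun _ _ => rfl
  have : IsScalarTower K R C := ⟨fun a r c => by
    rw [hK, Algebra.smul_def, mul_smul]⟩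
  have : Module.Finite K C := Module.Finite.trans R C
  -- the subspace of the vertex L
  let VL : Submodule K C :=
    { carrier := {c | D.eL • c = c}
      zero_mem' := smul_zero _
      add_mem' := fun {a b} ha hb => by
        change D.eL • (a + b) = a + b
        rw [smul_add, ha, hb]
      smul_mem' := fun a c hc => by
        change D.eL • (a • c) = a • c
        rw [hK, alg_smul_comm, show D.eL • c = c from hc] }
  let pL : C →ₗ[K] VL :=
    { toFun := fun c => ⟨D.eL • c, by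
        change D.eL • (D.eL • c) = D.eL • c
        rw [← mul_smul, D.ll]⟩
      map_add' := fun a b => Subtype.ext (smul_add _ _ _)
      map_smul' := fun a c => Subtype.ext (by
        change D.eL • (a • c) = a • (D.eL • c)
        rw [hK, alg_smul_comm, hK]) }
  let tm : C →ₗ[K] VL :=
    { toFun := fun c => ⟨D.θ • c, by
        change D.eL • (D.θ • c) = D.θ • c
        rw [← mul_smul, D.lθ]⟩
      map_add' := fun a b => Subtype.ext (smul_add _ _ _)
      map_smul' := fun a c => Subtype.ext (by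
        change D.θ • (a • c) = a • (D.θ • c)
        rw [hK, alg_smul_comm, hK]) }
  have pL_val : ∀ c, (pL c : C) = D.eL • c := fun _ => rfl
  have tm_val : ∀ c, (tm c : C) = D.θ • c := fun _ => rfl
  have pL_of : ∀ v : VL, pL (v : C) = v := fun v => Subtype.ext v.2
  have tm_pL : ∀ c, tm (D.eL • c) = 0 := fun c => Subtype.ext (by
    rw [tm_val, ← mul_smul, D.θl, zero_smul]; rfl)
  have tm_of : ∀ v : VL, tm (v : C) = 0 := fun v => by
    rw [← tm_pL (v : C), show D.eL • (v : C) = v from v.2]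
  -- transformation under the ring
  have hr : ∀ r : R, ∃ x y z : K, (∀ c : C, tm (r • c) = x • tm c) ∧
      (∀ c : C, pL (r • c) = y • pL c + z • tm c) ∧
      (r • D.q = algebraMap K R x • D.q + algebraMap K R z • (D.θ • D.q)) ∧
      (r • (D.θ • D.q) = algebraMap K R y • (D.θ • D.q)) ∧
      (r • D.s = algebraMap K R y • D.s) ∧
      (r • D.π D.q = algebraMap K R x • D.π D.q) ∧
      (∀ c : C, tm c = 0 → pL c = 0 → r • c = x • c) := by
    intro r
    obtain ⟨x, y, z, h⟩ := D.act r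
    have h1 := h C hPC
    refine ⟨x, y, z, fun c => ?_, fun c => ?_, ?_, ?_, ?_, ?_, fun c ht hp => ?_⟩
    · apply Subtype.ext
      change D.θ • (r • c) = x • (D.θ • c)
      rw [h1 c, smul_add, smul_add, alg_smul_comm, alg_smul_comm, alg_smul_comm,
        ← mul_smul D.θ D.eK, ← mul_smul D.θ D.eL, ← mul_smul D.θ D.θ, D.θk, D.θl, D.θθ,
        zero_smul, smul_zero, smul_zero, add_zero, add_zero, hK]
    · apply Subtype.ext
      change D.eL • (r • c) = y • (D.eL • c) + z • (D.θ • c)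
      rw [h1 c, smul_add, smul_add, alg_smul_comm, alg_smul_comm, alg_smul_comm,
        ← mul_smul D.eL D.eK, ← mul_smul D.eL D.eL, ← mul_smul D.eL D.θ, D.lk, D.ll, D.lθ,
        zero_smul, smul_zero, zero_add, hK, hK]
    · have h2 := h Q D.hPQ D.q
      rw [D.hq] at h2
      have h3 : D.eL • D.q = 0 := by rw [← D.hq, ← mul_smul, D.lk, zero_smul]
      rw [h3, smul_zero, add_zero] at h2
      exact h2
    · have h2 := h Q D.hPQ (D.θ • D.q)
      rw [← mul_smul D.eK, ← mul_smul D.eL, ← mul_smul D.θ D.θ, D.kθ, D.lθ, D.θθ, zero_smul,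
        smul_zero, smul_zero, zero_add, add_zero] at h2
      exact h2
    · have h2 := h S D.hPS D.s
      have h3 : D.eK • D.s = 0 := by rw [← D.hs, ← mul_smul, D.kl, zero_smul]
      have h4 : D.θ • D.s = 0 := by rw [← D.hs, ← mul_smul, D.θl, zero_smul]
      rw [h3, h4, D.hs, smul_zero, smul_zero, zero_add, add_zero] at h2
      exact h2
    · have h2 := h T D.hPT (D.π D.q)
      have h3 : D.eK • D.π D.q = D.π D.q := by rw [← map_smul, D.hq]
      have h4 : D.eL • D.π D.q = 0 := by rw [← h3, ← mul_smul, D.lk, zero_smul]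
      have h5 : D.θ • D.π D.q = 0 := by
        rw [← map_smul, ← D.ιs]
        exact (D.ses.exact _).2 ⟨_, rfl⟩
      rw [h3, h4, h5, smul_zero, smul_zero, add_zero, add_zero] at h2
      exact h2
    · have h3 : D.θ • c = 0 := by rw [← tm_val, ht]; rfl
      have h4 : D.eL • c = 0 := by rw [← pL_val, hp]; rfl
      have h5 := D.one C hPC c
      rw [h4, add_zero] at h5
      rw [h1 c, h3, h4, h5, smul_zero, smul_zero, add_zero, add_zero, hK]
  -- θ is onto
  have htm : Surjective tm := by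
    intro v
    by_contra hne
    have hv : v ∉ LinearMap.range tm := hne
    obtain ⟨lam, hlam, hlam2⟩ := Submodule.exists_le_ker_of_notMem hv
    have hl0 : ∀ c, lam (tm c) = 0 := fun c => LinearMap.mem_ker.1 (hlam2 ⟨c, rfl⟩)
    let G : C →ₗ[R] S :=
      { toFun := fun c => algebraMap K R (lam (pL c)) • D.s
        map_add' := fun a b => by rw [map_add, map_add, map_add, add_smul]
        map_smul' := fun r c => by
          obtain ⟨x, y, z, h1, h2, h3, h4, h5, h6, h7⟩ := hr r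
          rw [RingHom.id_apply, h2, map_add, map_smul, map_smul, hl0, smul_zero, add_zero,
            alg_smul_comm, h5, ← mul_smul, ← map_mul, smul_eq_mul, mul_comm] }
    have hG := LinearMap.congr_fun (hCS G) (v : C)
    have hG2 : algebraMap K R (lam (pL (v : C))) • D.s = 0 := hG
    rw [pL_of] at hG2
    exact hlam (alg_smul_eq_zero hG2 D.s_ne)
  -- the map to a power of Q
  let b := Module.finBasis K VL
  let m := Module.finrank K VL
  let F : C →ₗ[R] (Fin m → Q) :=
    { toFun := fun c i => algebraMap K R (b.repr (tm c) i) • D.q +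
        algebraMap K R (b.repr (pL c) i) • (D.θ • D.q)
      map_add' := fun c d => by
        funext i
        simp only [map_add, Finsupp.add_apply, add_smul, Pi.add_apply]
        abel
      map_smul' := fun r c => by
        funext i
        obtain ⟨x, y, z, h1, h2, h3, h4, h5, h6, h7⟩ := hr r
        have e1 : b.repr (tm (r • c)) i = x * b.repr (tm c) i := by
          rw [h1, map_smul, Finsupp.smul_apply, smul_eq_mul]
        have e2 : b.repr (pL (r • c)) i = y * b.repr (pL c) i + z * b.repr (tm c) i := by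
          rw [h2, map_add, map_smul, map_smul, Finsupp.add_apply, Finsupp.smul_apply,
            Finsupp.smul_apply, smul_eq_mul, smul_eq_mul]
        rw [e1, e2, RingHom.id_apply, Pi.smul_apply, smul_add, alg_smul_comm, alg_smul_comm, h3,
          h4, smul_add]
        generalize D.θ • D.q = w
        simp only [← mul_smul, ← map_mul]
        rw [add_assoc, ← add_smul, ← map_add]
        congr 3
        · ring
        · ring }
  have hFsurj : Surjective F := by
    intro w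
    choose α β hαβ using fun i => D.spanQ (w i)
    obtain ⟨c0, hc0⟩ := htm (∑ i, α i • b i)
    let vL : VL := ∑ i, β i • b i
    refine ⟨D.eK • c0 + (vL : C), ?_⟩
    have e1 : tm (D.eK • c0 + (vL : C)) = ∑ i, α i • b i := by
      rw [map_add, tm_of, add_zero, ← hc0]
      apply Subtype.ext
      rw [tm_val, tm_val, ← mul_smul, D.θk]
    have e2 : pL (D.eK • c0 + (vL : C)) = ∑ i, β i • b i := by
      rw [map_add, pL_of]
      have h0 : pL (D.eK • c0) = 0 := Subtype.ext (by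
        rw [pL_val, ← mul_smul, D.lk, zero_smul]; rfl)
      rw [h0, zero_add]
    funext i
    change algebraMap K R (b.repr (tm (D.eK • c0 + (vL : C))) i) • D.q +
        algebraMap K R (b.repr (pL (D.eK • c0 + (vL : C))) i) • (D.θ • D.q) = w i
    rw [e1, e2, b.repr_sum_self, b.repr_sum_self, hαβ i]
  have hFker : ∀ c, F c = 0 → tm c = 0 ∧ pL c = 0 := by
    intro c hc
    have h1 : ∀ i, b.repr (tm c) i = 0 ∧ b.repr (pL c) i = 0 := fun i =>
      D.indepQ (congrFun hc i)
    constructor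
    · apply b.repr.injective
      ext i
      rw [(h1 i).1, map_zero, Finsupp.zero_apply]
    · apply b.repr.injective
      ext i
      rw [(h1 i).2, map_zero, Finsupp.zero_apply]
  let V0 := LinearMap.ker F
  have sF : SES V0.subtype F :=
    ⟨V0.subtype_injective, LinearMap.exact_subtype_ker_map F, hFsurj⟩
  have hV1 : EZ R 1 V0 S := sF.ez_left hC1 (Orth.pow hQS 2)
  -- the kernel vanishes
  have hV0 : ∀ c : V0, c = 0 := by
    intro c0
    by_contra hne
    have hc0 : (c0 : C) ≠ 0 := fun h => hne (Subtype.ext h)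
    have hV0tm : ∀ v : V0, tm (v : C) = 0 ∧ pL (v : C) = 0 := fun v =>
      hFker _ (LinearMap.mem_ker.1 v.2)
    -- a functional on C with value one on c0
    obtain ⟨mu, hmu, _⟩ := Submodule.exists_le_ker_of_notMem (K := K) (p := (⊥ : Submodule K C))
      (v := (c0 : C)) (by simpa using hc0)
    -- coefficients on T
    choose cT hcT using D.spanT
    have cT_uniq : ∀ (t : T) (a : K), t = algebraMap K R a • D.π D.q → cT t = a := by
      intro t a ha
      have h1 : algebraMap K R (cT t - a) • D.π D.q = 0 := by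
        rw [map_sub, sub_smul, ← hcT t, ← ha, sub_self]
      exact sub_eq_zero.1 (alg_smul_eq_zero h1 D.t_ne)
    have hrV : ∀ r : R, ∃ x : K, (∀ v : V0, r • v = algebraMap K R x • v) ∧
        (r • D.π D.q = algebraMap K R x • D.π D.q) := by
      intro r
      obtain ⟨x, y, z, h1, h2, h3, h4, h5, h6, h7⟩ := hr r
      refine ⟨x, fun v => Subtype.ext ?_, h6⟩
      exact h7 v (hV0tm v).1 (hV0tm v).2
    let p : T →ₗ[R] V0 :=
      { toFun := fun t => algebraMap K R (cT t) • c0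
        map_add' := fun t t' => by
          rw [← add_smul, ← map_add]
          congr 2
          apply cT_uniq
          rw [map_add, add_smul, ← hcT, ← hcT]
        map_smul' := fun r t => by
          obtain ⟨x, h1, h2⟩ := hrV r
          have h3 : cT (r • t) = x * cT t := by
            apply cT_uniq
            conv_lhs => rw [hcT t]
            rw [alg_smul_comm, h2, ← mul_smul, ← map_mul, mul_comm]
          rw [RingHom.id_apply, h1, h3, map_mul, mul_smul] }
    let pp : V0 →ₗ[R] T :=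
      { toFun := fun v => algebraMap K R ((mu (c0 : C))⁻¹ * mu (v : C)) • D.π D.q
        map_add' := fun v v' => by
          rw [← add_smul, ← map_add]
          congr 2
          rw [Submodule.coe_add, map_add, mul_add]
        map_smul' := fun r v => by
          obtain ⟨x, h1, h2⟩ := hrV r
          rw [RingHom.id_apply, h1, alg_smul_comm, h2, ← mul_smul, ← map_mul]
          congr 2
          have h3 : ((algebraMap K R x • v : V0) : C) = x • (v : C) := rfl
          rw [h3, map_smul, smul_eq_mul]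
          ring }
    have hpp : pp ∘ₗ p = LinearMap.id := by
      apply LinearMap.ext
      intro t
      change algebraMap K R ((mu (c0 : C))⁻¹ * mu ((algebraMap K R (cT t) • c0 : V0) : C)) •
        D.π D.q = t
      have h3 : ((algebraMap K R (cT t) • c0 : V0) : C) = cT t • (c0 : C) := rfl
      rw [h3, map_smul, smul_eq_mul]
      conv_rhs => rw [hcT t]
      congr 2
      field_simp
    have hT1 : EZ R 1 T S := EZ.of_retract p pp hpp hV1
    obtain ⟨v, hv⟩ := D.ses.extend hT1 LinearMap.id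
    have h0 := hQS.hom v
    apply D.s_ne
    have h2 := LinearMap.congr_fun hv D.s
    rw [h0, LinearMap.zero_comp] at h2
    exact h2.symm
  have hsub : Subsingleton V0 := ⟨fun a c => (hV0 a).trans (hV0 c).symm⟩
  exact ⟨sF.orth_left₂ orth_of_subsingleton (Orth.pow hQN),
    sF.orth_left₂ orth_of_subsingleton (Orth.pow hQS)⟩

end

end Vale.Agent.P195Q.Van
end
end

section

section

open Function CategoryTheory CategoryTheory.Abelian

namespace Vale.Agent.P195Q

universe u v w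

section bridge

variable {R : Type u} [Ring R]

/-- The short complex attached to an exact pair of linear maps. -/
def sc {X P N : ModuleCat.{u} R} (i : X →ₗ[R] P) (p : P →ₗ[R] N) (hex : Exact i p) :
    ShortComplex (ModuleCat.{u} R) :=
  ShortComplex.mk (ModuleCat.ofHom i) (ModuleCat.ofHom p) (by
    ext x
    exact (hex (i x)).2 ⟨x, rfl⟩)

theorem sc_shortExact {X P N : ModuleCat.{u} R} (i : X →ₗ[R] P) (p : P →ₗ[R] N)
    (hex : Exact i p) (hi : Injective i) (hp : Surjective p) : (sc i p hex).ShortExact where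
  exact := by
    rw [ShortComplex.moduleCat_exact_iff]
    intro x hx
    exact (hex x).1 hx
  mono_f := (ModuleCat.mono_iff_injective _).2 hi
  epi_g := (ModuleCat.epi_iff_surjective _).2 hp

/-- finitely generated modules, bundled -/
structure FG (R : Type u) [Ring R] where
  X : ModuleCat.{u} R
  fin : Module.Finite R X

/-- a chosen minimal projective cover -/
theorem FG.exists_cover [IsArtinianRing R] (M : FG R) :
    ∃ (P : ModuleCat.{u} R) (π : P →ₗ[R] M.X), Module.Finite R P ∧ Module.Projective R P ∧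
      Surjective π ∧ LinearMap.ker π ≤ Ring.jacobson R • (⊤ : Submodule R P) := by
  have := M.fin
  obtain ⟨P, _, _, h1, h2, π, h3, h4⟩ := exists_min_cover (R := R) M.X
  exact ⟨ModuleCat.of R P, π, h1, h2, h3, h4⟩

noncomputable def FG.cov [IsArtinianRing R] (M : FG R) : ModuleCat.{u} R :=
  M.exists_cover.choose

noncomputable def FG.π [IsArtinianRing R] (M : FG R) : M.cov →ₗ[R] M.X :=
  M.exists_cover.choose_spec.choose

theorem FG.cov_spec [IsArtinianRing R] (M : FG R) : Module.Finite R M.cov ∧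
    Module.Projective R M.cov ∧ Surjective M.π ∧
      LinearMap.ker M.π ≤ Ring.jacobson R • (⊤ : Submodule R M.cov) :=
  M.exists_cover.choose_spec.choose_spec

noncomputable def FG.next [IsArtinianRing R] (M : FG R) : FG R where
  X := ModuleCat.of R (LinearMap.ker M.π)
  fin := by
    have := M.cov_spec.1
    have : IsNoetherian R M.cov := inferInstance
    exact (inferInstance : Module.Finite R (LinearMap.ker M.π))

noncomputable def FG.syz [IsArtinianRing R] (M : FG R) : ℕ → FG R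
  | 0 => M
  | n + 1 => (FG.syz M n).next

end bridge

end Vale.Agent.P195Q
end
end

section

section

namespace Vale.Agent.P195Q

open Submodule

universe u v w

variable {R : Type u} [Ring R]

/-- `X` is isomorphic to a finite direct sum of members of the family `W`. -/
def IsSumOf {ι : Type w} (W : ι → ModuleCat.{v} R) (X : Type v) [AddCommGroup X] [Module R X] :
    Prop :=
  ∃ (m : ℕ) (c : Fin m → ι), Nonempty (X ≃ₗ[R] ((j : Fin m) → W (c j)))

theorem IsSumOf.finite {ι : Type w} {W : ι → ModuleCat.{v} R} (hW : ∀ i, Module.Finite R (W i))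
    {X : Type v} [AddCommGroup X] [Module R X] (h : IsSumOf W X) : Module.Finite R X := by
  obtain ⟨m, c, ⟨e⟩⟩ := h
  exact Module.Finite.equiv e.symm

end Vale.Agent.P195Q
end
end

section

section

open Function CategoryTheory CategoryTheory.Abelian

namespace Vale.Agent.P195Q

universe u w

section lin

variable (k : Type w) [CommRing k] {R : Type u} [Ring R] [Algebra k R]

/-- The category of modules over a `k`-algebra is `k`-linear. -/
@[reducible] noncomputable def linK : Linear k (ModuleCat.{u} R) :=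
  letI : ∀ M : ModuleCat.{u} R, Module k M := fun M => Module.restrictScalars k R M
  haveI : ∀ M : ModuleCat.{u} R, IsScalarTower k R M := fun M =>
    IsScalarTower.restrictScalars k R M
  { homModule := fun _ _ => inferInstance
    smul_comp := fun _ _ _ _ _ _ => by ext; simp
    comp_smul := fun _ _ _ _ _ _ => by ext; simp }

end lin

/-- The short complex attached to an exact pair of linear maps (reducible version). -/
abbrev scR {R : Type u} [Ring R] {X P N : ModuleCat.{u} R} (i : X →ₗ[R] P) (p : P →ₗ[R] N)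
    (hex : Exact i p) : ShortComplex (ModuleCat.{u} R) :=
  ShortComplex.mk (ModuleCat.ofHom i) (ModuleCat.ofHom p) (by
    ext x
    exact (hex (i x)).2 ⟨x, rfl⟩)

theorem scR_shortExact {R : Type u} [Ring R] {X P N : ModuleCat.{u} R} (i : X →ₗ[R] P)
    (p : P →ₗ[R] N) (hex : Exact i p) (hi : Injective i) (hp : Surjective p) :
    (scR i p hex).ShortExact :=
  sc_shortExact i p hex hi hp

section len

variable (k : Type w) [CommRing k] {R : Type u} [Ring R] [Algebra k R]

/-- The length over `k` of `Ext^i(M, X)` as a natural number. -/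
noncomputable def eLen (M X : ModuleCat.{u} R) (i : ℕ) : ℕ :=
  letI := linK k (R := R)
  (Module.length k (Ext M X i)).toNat

attribute [local instance] linK

/-- The `k`-modules `Ext^i(M, X)` are finitely generated. -/
theorem ext_finite [IsNoetherianRing k] [Module.Finite k R] (X : ModuleCat.{u} R)
    [Module.Finite R X] (i : ℕ) : ∀ (M : ModuleCat.{u} R) [Module.Finite R M],
    Module.Finite k (Ext M X i) := by
  have hR : IsNoetherianRing R := by
    have : IsNoetherian k R := inferInstance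
    exact isNoetherian_of_tower k this
  induction i with
  | zero =>
    intro M _
    let _ : Module k X := Module.restrictScalars k R X
    have : IsScalarTower k R X := IsScalarTower.restrictScalars k R X
    have : Module.Finite k X := Module.Finite.trans R X
    have : IsNoetherian k X := inferInstance
    have : IsNoetherian k (M →ₗ[R] X) := noeth_hom k
    exact Module.Finite.equiv (Ext.linearEquiv₀.trans ModuleCat.homLinearEquiv).symm
  | succ n ih =>
    intro M _
    obtain ⟨d, f, hf⟩ := Module.Finite.exists_fin' R M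
    have hS := scR_shortExact (X := ModuleCat.of R (LinearMap.ker f))
      (P := ModuleCat.of R (Fin d → R)) (N := M) (LinearMap.ker f).subtype f
      (LinearMap.exact_subtype_ker_map f) (Submodule.subtype_injective _) hf
    have hK : Module.Finite R (LinearMap.ker f) := inferInstance
    have := ih (ModuleCat.of R (LinearMap.ker f))
    have hproj : Projective (ModuleCat.of R (Fin d → R)) :=
      (IsProjective.iff_projective _).1 inferInstance
    refine Module.Finite.of_surjective (hS.extClass.precompOfLinear k X (add_comm 1 n)) ?_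
    intro x
    exact Ext.contravariant_sequence_exact₃ hS X x
      (Ext.eq_zero_of_projective (P := ModuleCat.of R (Fin d → R)) _) (add_comm 1 n)

theorem ext_length_ne_top [IsArtinianRing k] [Module.Finite k R] (M X : ModuleCat.{u} R)
    [Module.Finite R M] [Module.Finite R X] (i : ℕ) : Module.length k (Ext M X i) ≠ ⊤ := by
  have : Module.Finite k (Ext M X i) := ext_finite k X i M
  exact Module.length_ne_top

theorem eLen_eq_zero [IsArtinianRing k] [Module.Finite k R] (M X : ModuleCat.{u} R)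
    [Module.Finite R M] [Module.Finite R X] (i : ℕ) :
    eLen k M X i = 0 ↔ Subsingleton (Ext M X i) := by
  unfold eLen
  rw [← Module.length_eq_zero_iff (R := k), ENat.toNat_eq_zero]
  constructor
  · rintro (h | h)
    · exact h
    · exact absurd h (ext_length_ne_top k M X i)
  · intro h
    exact Or.inl h

/-- Dimension shifting in the first variable. -/
theorem eLen_shift {X P N Y : ModuleCat.{u} R} (i : X →ₗ[R] P) (p : P →ₗ[R] N)
    (hex : Exact i p) (hi : Injective i) (hp : Surjective p) [Module.Projective R P] (j : ℕ)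
    (hj : 1 ≤ j) : eLen k X Y j = eLen k N Y (j + 1) := by
  have hS := scR_shortExact i p hex hi hp
  have hproj : Projective P := (IsProjective.iff_projective P).1 inferInstance
  obtain ⟨j, rfl⟩ : ∃ j', j = j' + 1 := ⟨j - 1, by omega⟩
  have hbij : Bijective (hS.extClass.precompOfLinear k Y (add_comm 1 (j + 1))) := by
    constructor
    · intro a b hab
      rw [← sub_eq_zero, ← map_sub] at hab
      rw [← sub_eq_zero]
      obtain ⟨x₂, hx₂⟩ := Ext.contravariant_sequence_exact₁ hS Y (a - b) (add_comm 1 (j + 1)) hab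
      have h0 : x₂ = 0 := Ext.eq_zero_of_projective (P := P) x₂
      rw [← hx₂, h0, Ext.comp_zero]
    · intro x
      exact Ext.contravariant_sequence_exact₃ hS Y x
        (Ext.eq_zero_of_projective (P := P) _) (add_comm 1 (j + 1))
  unfold eLen
  exact congrArg ENat.toNat (LinearEquiv.ofBijective _ hbij).length_eq

theorem eLen_congr (M : ModuleCat.{u} R) {X Y : ModuleCat.{u} R} (e : X ≃ₗ[R] Y) (i : ℕ) :
    eLen k M X i = eLen k M Y i := by
  have h1 : ModuleCat.ofHom e.toLinearMap ≫ ModuleCat.ofHom e.symm.toLinearMap = 𝟙 X := by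
    ext x; simp
  have h2 : ModuleCat.ofHom e.symm.toLinearMap ≫ ModuleCat.ofHom e.toLinearMap = 𝟙 Y := by
    ext x; simp
  let f : Ext M X i →ₗ[k] Ext M Y i :=
    (Ext.mk₀ (ModuleCat.ofHom e.toLinearMap)).postcompOfLinear k M (add_zero i)
  let g : Ext M Y i →ₗ[k] Ext M X i :=
    (Ext.mk₀ (ModuleCat.ofHom e.symm.toLinearMap)).postcompOfLinear k M (add_zero i)
  have hgf : ∀ x, g (f x) = x := by
    intro x
    show (x.comp (Ext.mk₀ (ModuleCat.ofHom e.toLinearMap)) (add_zero i)).comp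
      (Ext.mk₀ (ModuleCat.ofHom e.symm.toLinearMap)) (add_zero i) = x
    rw [Ext.comp_assoc_of_second_deg_zero, Ext.mk₀_comp_mk₀, h1, Ext.comp_mk₀_id]
  have hfg : ∀ x, f (g x) = x := by
    intro x
    show (x.comp (Ext.mk₀ (ModuleCat.ofHom e.symm.toLinearMap)) (add_zero i)).comp
      (Ext.mk₀ (ModuleCat.ofHom e.toLinearMap)) (add_zero i) = x
    rw [Ext.comp_assoc_of_second_deg_zero, Ext.mk₀_comp_mk₀, h2, Ext.comp_mk₀_id]
  unfold eLen
  refine congrArg ENat.toNat (LinearEquiv.ofBijective f ⟨?_, ?_⟩).length_eq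
  · exact Function.LeftInverse.injective hgf
  · exact Function.RightInverse.surjective hfg

theorem eLen_pi [IsArtinianRing k] [Module.Finite k R] (M : ModuleCat.{u} R)
    [Module.Finite R M] {m : ℕ} (X : Fin m → ModuleCat.{u} R)
    (hX : ∀ j, Module.Finite R (X j)) (i : ℕ) :
    eLen k M (ModuleCat.of R ((j : Fin m) → X j)) i = ∑ j, eLen k M (X j) i := by
  classical
  let TT : ModuleCat.{u} R := ModuleCat.of R ((j : Fin m) → X j)
  let pr : (j : Fin m) → (TT ⟶ X j) := fun j => ModuleCat.ofHom (LinearMap.proj j)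
  let inc : (j : Fin m) → (X j ⟶ TT) := fun j =>
    ModuleCat.ofHom (LinearMap.single R (fun j => (X j : Type u)) j)
  have h1 : ∀ j, inc j ≫ pr j = 𝟙 (X j) := by
    intro j
    refine ModuleCat.hom_ext (LinearMap.ext fun x => ?_)
    exact Pi.single_eq_same (M := fun j => (X j : Type u)) j x
  have h2 : ∀ j j', j ≠ j' → inc j ≫ pr j' = 0 := by
    intro j j' hjj'
    refine ModuleCat.hom_ext (LinearMap.ext fun x => ?_)
    exact Pi.single_eq_of_ne' (M := fun j => (X j : Type u)) hjj' x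
  have h3 : ∑ j, pr j ≫ inc j = 𝟙 TT := by
    refine ModuleCat.hom_ext (LinearMap.ext fun x => ?_)
    rw [ModuleCat.hom_sum, LinearMap.sum_apply]
    exact Finset.univ_sum_single (M := fun j => (X j : Type u)) x
  let f : Ext M TT i →ₗ[k] ((j : Fin m) → Ext M (X j) i) :=
    LinearMap.pi fun j => (Ext.mk₀ (pr j)).postcompOfLinear k M (add_zero i)
  have hf : ∀ x j, f x j = x.comp (Ext.mk₀ (pr j)) (add_zero i) := fun _ _ => rfl
  have hbij : Bijective f := by
    constructor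
    · intro x y hxy
      have hx : ∀ z : Ext M TT i, z = ∑ j, (f z j).comp (Ext.mk₀ (inc j)) (add_zero i) := by
        intro z
        conv_lhs => rw [← Ext.comp_mk₀_id z, ← h3, Ext.mk₀_sum, Ext.comp_sum]
        refine Finset.sum_congr rfl fun j _ => ?_
        rw [hf, Ext.comp_assoc_of_second_deg_zero, Ext.mk₀_comp_mk₀]
      rw [hx x, hx y, hxy]
    · intro y
      refine ⟨∑ j, (y j).comp (Ext.mk₀ (inc j)) (add_zero i), ?_⟩
      funext j'
      rw [map_sum, Finset.sum_apply, Finset.sum_eq_single j']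
      · rw [hf, Ext.comp_assoc_of_second_deg_zero, Ext.mk₀_comp_mk₀, h1, Ext.comp_mk₀_id]
      · intro j _ hjj'
        rw [hf, Ext.comp_assoc_of_second_deg_zero, Ext.mk₀_comp_mk₀, h2 j j' hjj',
          Ext.mk₀_zero, Ext.comp_zero]
      · intro h; exact absurd (Finset.mem_univ _) h
  unfold eLen
  rw [(LinearEquiv.ofBijective f hbij).length_eq, Module.length_pi_of_fintype]
  have h : ∀ j, ∃ l : ℕ, Module.length k (Ext M (X j) i) = l := fun j => by
    have := hX j
    exact ⟨_, (ENat.natCast_toNat (ext_length_ne_top k M (X j) i)).symm⟩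
  choose l hl using h
  simp only [hl, ENat.toNat_natCast]
  rw [← Nat.cast_sum, ENat.toNat_natCast]

/-- Length of `Ext` into a finite direct sum of members of a family. -/
theorem eLen_isSumOf [IsArtinianRing k] [Module.Finite k R] (M : ModuleCat.{u} R)
    [Module.Finite R M] {ι : Type*} (W : ι → ModuleCat.{u} R)
    (hW : ∀ j, Module.Finite R (W j)) {X : ModuleCat.{u} R} {m : ℕ} (c : Fin m → ι)
    (e : X ≃ₗ[R] ((j : Fin m) → W (c j))) (i : ℕ) :
    eLen k M X i = ∑ j, eLen k M (W (c j)) i := by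
  rw [← eLen_pi k M (fun j => W (c j)) (fun j => hW (c j)) i]
  exact eLen_congr k M (Y := ModuleCat.of R ((j : Fin m) → W (c j))) e i

end len

end Vale.Agent.P195Q
end
end

section

section

open Function CategoryTheory CategoryTheory.Abelian

namespace Vale.Agent.P195Q

universe u w

/-! ### Linear algebra: a triangular system of functionals -/

/-- There is no triangular system of `dim E + 1` functionals. -/
theorem no_triangular {E : Type*} [AddCommGroup E] [Module ℚ E] [FiniteDimensional ℚ E]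
    {d : ℕ} (hd : Module.finrank ℚ E < d) (x : Fin d → E) (φ : Fin d → (E →ₗ[ℚ] ℚ))
    (h1 : ∀ t, φ t (x t) ≠ 0) (h2 : ∀ t t', t < t' → φ t (x t') = 0) : False := by
  have hli : LinearIndependent ℚ x := by
    rw [Fintype.linearIndependent_iff]
    intro c hc
    have key : ∀ n : ℕ, ∀ t : Fin d, t.1 = n → c t = 0 := by
      intro n
      induction n using Nat.strong_induction_on with
      | _ n ih =>
        intro t ht
        have h3 := congrArg (φ t) hc
        rw [map_sum, map_zero, Finset.sum_eq_single t] at h3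
        · rw [map_smul, smul_eq_mul] at h3
          exact (mul_eq_zero.mp h3).resolve_right (h1 t)
        · intro t' _ hne
          rw [map_smul, smul_eq_mul]
          rcases lt_or_gt_of_ne hne with hlt | hlt
          · rw [ih t'.1 (by rw [← ht]; exact hlt) t' rfl, zero_mul]
          · rw [h2 t t' hlt, mul_zero]
        · intro h; exact absurd (Finset.mem_univ _) h
    exact fun t => key t.1 t rfl
  have := hli.fintype_card_le_finrank
  rw [Fintype.card_fin] at this
  omega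

section

variable (k : Type w) [CommRing k] [IsArtinianRing k] {R : Type u} [Ring R] [Algebra k R]
  [Module.Finite k R]

attribute [local instance] linK

include k

/-- `Ext^i(M, Q) = 0` for finitely generated projective `Q`. -/
theorem ext_proj_subsingleton (M : ModuleCat.{u} R) [Module.Finite R M] (i : ℕ)
    (h : Subsingleton (Ext M (ModuleCat.of R R) i)) (Q : ModuleCat.{u} R) [Module.Finite R Q]
    [Module.Projective R Q] : Subsingleton (Ext M Q i) := by
  obtain ⟨d, g, s, -, -, hgs⟩ := Module.Finite.exists_comp_eq_id_of_projective R Q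
  have h1 : Subsingleton (Ext M (ModuleCat.of R (Fin d → R)) i) := by
    rw [← eLen_eq_zero k]
    rw [eLen_pi k M (fun _ : Fin d => ModuleCat.of R R) (fun _ => inferInstance) i]
    refine Finset.sum_eq_zero fun j _ => ?_
    rw [eLen_eq_zero]
    exact h
  refine subsingleton_of_forall_eq 0 fun x => ?_
  have h2 : ModuleCat.ofHom s ≫ ModuleCat.ofHom g = 𝟙 Q := by
    refine ModuleCat.hom_ext ?_
    exact hgs
  have h3 : (x.comp (Ext.mk₀ (ModuleCat.ofHom s)) (add_zero i)).comp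
      (Ext.mk₀ (ModuleCat.ofHom g)) (add_zero i) = x := by
    rw [Ext.comp_assoc_of_second_deg_zero, Ext.mk₀_comp_mk₀, h2, Ext.comp_mk₀_id]
  have h4 : x.comp (Ext.mk₀ (ModuleCat.ofHom s)) (add_zero i) = 0 :=
    Subsingleton.elim (α := Ext M (ModuleCat.of R (Fin d → R)) i) _ _
  rw [← h3, h4, Ext.zero_comp]

variable {N P : ℕ → ModuleCat.{u} R} {i : ∀ n, N (n + 1) →ₗ[R] P n}
    {p : ∀ n, P n →ₗ[R] N n}

omit k [CommRing k] [IsArtinianRing k] [Algebra k R] [Module.Finite k R] in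
/-- A map killed by the extension class of `0 → N (n+1) → P n → N n → 0` extends. -/
theorem extends_of_extClass {X P N Y : ModuleCat.{u} R} (i : X →ₗ[R] P) (p : P →ₗ[R] N)
    (hex : Exact i p) (hi : Injective i) (hp : Surjective p) (g : X →ₗ[R] Y)
    (h0 : (scR_shortExact i p hex hi hp).extClass.comp (Ext.mk₀ (ModuleCat.ofHom g))
      (add_zero 1) = 0) :
    ∃ F : P →ₗ[R] Y, F ∘ₗ i = g := by
  obtain ⟨x₂, hx₂⟩ := Ext.contravariant_sequence_exact₁ (scR_shortExact i p hex hi hp) Y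
    (Ext.mk₀ (ModuleCat.ofHom g)) (n₁ := 1) rfl h0
  obtain ⟨F, rfl⟩ := Ext.homEquiv₀.symm.surjective x₂
  refine ⟨F.hom, ?_⟩
  have h1 : Ext.mk₀ ((scR i p hex).f ≫ F) = Ext.mk₀ (ModuleCat.ofHom g) := by
    rw [← Ext.mk₀_comp_mk₀]
    exact hx₂
  have h2 := (Ext.mk₀_bijective _ _).1 h1
  exact congrArg ModuleCat.Hom.hom h2

end

end Vale.Agent.P195Q
end
end

section

section

open Function

namespace Vale.Agent.P195Q

universe u w

end Vale.Agent.P195Q
end
end

section

section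

open Function CategoryTheory CategoryTheory.Abelian

namespace Vale.Agent.P195Q

universe u w

section

variable (k : Type w) [CommRing k] [IsArtinianRing k] {R : Type u} [Ring R] [Algebra k R]
  [Module.Finite k R]
variable {N P : ℕ → ModuleCat.{u} R} {i : ∀ n, N (n + 1) →ₗ[R] P n}
    {p : ∀ n, P n →ₗ[R] N n}

include k

end

end Vale.Agent.P195Q
end
end
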