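import Mathlib.Algebra.Field.ULift
import Mathlib.FieldTheory.RatFunc.Basic
import Vale.Agent.P195.H231.Q.B3

/-!
# P195: fields that are not algebraic over a finite field
-/

namespace Vale.Agent.P195.H231

universe u

/-- an element of infinite multiplicative order gives the parameter of the quantum Weyl algebra -/
theorem exists_qpar {K : Type u} [Field K] {t : K} (h0 : t ≠ 0)
    (h : ∀ n : ℕ, 1 ≤ n → t ^ n ≠ 1) : Nonempty (Vale.Agent.P195Q.QPar K) :=
  ⟨⟨t, h0, fun n hn => h (n + 1) (Nat.succ_pos n) (by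
    have := geom_sum_mul t (n + 1)
    rw [hn, zero_mul] at this
    exact (sub_eq_zero.1 this.symm))⟩⟩

theorem not_algebraic_of_order {K : Type u} [Field K] {t : K} (h0 : t ≠ 0)
    (h : ∀ n : ℕ, 1 ≤ n → t ^ n ≠ 1) (F : Subfield K) (hF : Finite F) :
    ¬ Algebra.IsAlgebraic F K := by
  intro ha
  have hi : IsIntegral F t := Algebra.IsAlgebraic.isIntegral.isIntegral t
  have hfd : FiniteDimensional F (IntermediateField.adjoin F {t}) :=
    IntermediateField.adjoin.finiteDimensional hi
  have hfin : Finite (IntermediateField.adjoin F {t}) :=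
    Module.finite_of_finite F
  let s : IntermediateField.adjoin F {t} := ⟨t, IntermediateField.mem_adjoin_simple_self F t⟩
  have hs : s ≠ 0 := fun hs => h0 (congrArg Subtype.val hs)
  let v : (IntermediateField.adjoin F {t})ˣ := Units.mk0 s hs
  have hv : IsOfFinOrder v := isOfFinOrder_of_finite v
  obtain ⟨n, hn, hn'⟩ := isOfFinOrder_iff_pow_eq_one.1 hv
  apply h n hn
  have h1 : s ^ n = 1 := by
    have := congrArg Units.val hn'
    simpa [v] using this
  have h2 := congrArg Subtype.val h1
  simpa [s] using h2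

theorem exists_order {K : Type u} [Field K]
    (h : ∀ F : Subfield K, Finite F → ¬ Algebra.IsAlgebraic F K) :
    ∃ t : K, t ≠ 0 ∧ ∀ n : ℕ, 1 ≤ n → t ^ n ≠ 1 := by
  by_contra hc
  push Not at hc
  obtain ⟨p, hp⟩ := CharP.exists K
  rcases CharP.char_is_prime_or_zero K p with hp' | rfl
  · have : Fact p.Prime := ⟨hp'⟩
    have hfin : Finite (ZMod.castHom (dvd_refl p) K).fieldRange := by
      have : Finite (Set.range (ZMod.castHom (dvd_refl p) K)) := inferInstance
      exact this
    apply h _ hfin
    refine ⟨fun x => ?_⟩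
    by_cases hx : x = 0
    · rw [hx]
      exact isAlgebraic_zero
    · obtain ⟨n, hn, hn'⟩ := hc x hx
      refine ⟨Polynomial.X ^ n - Polynomial.C 1, Polynomial.X_pow_sub_C_ne_zero hn _, ?_⟩
      simp [hn']
  · have : CharZero K := CharP.charP_to_charZero K
    obtain ⟨n, hn, hn'⟩ := hc 2 two_ne_zero
    have h1 : ((2 ^ n : ℕ) : K) = ((1 : ℕ) : K) := by push_cast; exact hn'
    have h2 : 2 ^ n = 1 := Nat.cast_injective h1
    have h3 := Nat.one_lt_two_pow (n := n) (by omega)
    omega

theorem not_algebraic_of_charZero {K : Type u} [Field K] [CharZero K] (F : Subfield K)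
    (hF : Finite F) : ¬ Algebra.IsAlgebraic F K := by
  refine not_algebraic_of_order (t := (2 : K)) two_ne_zero (fun n hn hn' => ?_) F hF
  have h1 : ((2 ^ n : ℕ) : K) = ((1 : ℕ) : K) := by push_cast; exact hn'
  have h2 : 2 ^ n = 1 := Nat.cast_injective h1
  have h3 := Nat.one_lt_two_pow (n := n) (by omega)
  omega

theorem exists_field (p : ℕ) (hp : p.Prime) : ∃ (K : Type u) (_ : Field K), CharP K p ∧
    ∀ F : Subfield K, Finite F → ¬ Algebra.IsAlgebraic F K := by
  have : Fact p.Prime := ⟨hp⟩
  refine ⟨ULift.{u} (RatFunc (ZMod p)), inferInstance, inferInstance, fun F hF => ?_⟩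
  refine not_algebraic_of_order (t := ULift.up (RatFunc.X : RatFunc (ZMod p))) ?_ ?_ F hF
  · intro h
    exact RatFunc.X_ne_zero (congrArg ULift.down h)
  · intro n hn h
    have h1 : (RatFunc.X : RatFunc (ZMod p)) ^ n = 1 := congrArg ULift.down h
    rw [← RatFunc.algebraMap_X, ← map_pow, ← map_one (algebraMap (Polynomial (ZMod p))
      (RatFunc (ZMod p)))] at h1
    have h2 := RatFunc.algebraMap_injective (ZMod p) h1
    have h3 := congrArg Polynomial.natDegree h2
    rw [Polynomial.natDegree_X_pow, Polynomial.natDegree_one] at h3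
    omega

end Vale.Agent.P195.H231
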